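import Vale.Agent.Lib.P254.Formula

namespace Vale.Agent.Lib.P254

open MeasureTheory Set
open scoped Pointwise

section body

variable {n : ℕ}

lemma fin_cons_comb (a b t t' : ℝ) (z z' : Fin n → ℝ) :
    a • (Fin.cons t z : Fin (n + 1) → ℝ) + b • (Fin.cons t' z' : Fin (n + 1) → ℝ)
      = Fin.cons (a * t + b * t') (a • z + b • z') := by
  ext i
  refine Fin.cases ?_ (fun j => ?_) i
  · simp
  · simp

lemma convex_pyramid {K : Set (Fin n → ℝ)} (hK : Convex ℝ K) : Convex ℝ (pyramid K) := by
  rintro _ ⟨t, ht, x, hx, rfl⟩ _ ⟨t', ht', x', hx', rfl⟩ a b ha hb hab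
  rw [fin_cons_comb]
  have hs0 : 0 ≤ a * t + b * t' := add_nonneg (mul_nonneg ha ht.1) (mul_nonneg hb ht'.1)
  have hs1 : a * t + b * t' ≤ 1 := by
    have h1 : a * t ≤ a * 1 := mul_le_mul_of_nonneg_left ht.2 ha
    have h2 : b * t' ≤ b * 1 := mul_le_mul_of_nonneg_left ht'.2 hb
    linarith
  by_cases hs : a * t + b * t' = 0
  · have h1 : a * t = 0 := by
      have := mul_nonneg ha ht.1
      have := mul_nonneg hb ht'.1
      linarith
    have h2 : b * t' = 0 := by linarith
    refine ⟨0, ⟨le_refl _, zero_le_one⟩, x, hx, ?_⟩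
    rw [hs, smul_smul, smul_smul, h1, h2]
    simp
  · set s := a * t + b * t' with hsdef
    have hspos : 0 < s := lt_of_le_of_ne hs0 (Ne.symm hs)
    refine ⟨s, ⟨hs0, hs1⟩, (a * t / s) • x + (b * t' / s) • x', ?_, ?_⟩
    · apply hK hx hx'
      · exact div_nonneg (mul_nonneg ha ht.1) hs0
      · exact div_nonneg (mul_nonneg hb ht'.1) hs0
      · rw [← add_div, div_self hs]
    · congr 1
      rw [smul_add, smul_smul, smul_smul, smul_smul, smul_smul]
      congr 2
      · field_simp
      · field_simp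

lemma interior_pyramid_nonempty {K : Set (Fin n → ℝ)} (hK : (interior K).Nonempty) :
    (interior (pyramid K)).Nonempty := by
  obtain ⟨x0, hx0⟩ := hK
  set f : (Fin (n + 1) → ℝ) → (Fin n → ℝ) := fun y => (y 0)⁻¹ • Fin.tail y with hf
  set s : Set (Fin (n + 1) → ℝ) := {y | y 0 ∈ Ioo (0:ℝ) 1} with hs
  have hsopen : IsOpen s := isOpen_Ioo.preimage (continuous_apply 0)
  have hfcont : ContinuousOn f s := by
    have h1 : ContinuousOn (fun y : Fin (n + 1) → ℝ => (y 0)⁻¹) s := by
      apply ContinuousOn.inv₀ (continuous_apply 0).continuousOn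
      intro y hy
      exact (ne_of_gt hy.1)
    have h2 : ContinuousOn (fun y : Fin (n + 1) → ℝ => Fin.tail y) s :=
      (Continuous.continuousOn (by
        unfold Fin.tail
        fun_prop))
    exact h1.smul h2
  have hU : IsOpen (s ∩ f ⁻¹' interior K) := hfcont.isOpen_inter_preimage hsopen isOpen_interior
  have hsub : s ∩ f ⁻¹' interior K ⊆ pyramid K := by
    rintro y ⟨hy1, hy2⟩
    refine ⟨y 0, ⟨hy1.1.le, hy1.2.le⟩, f y, interior_subset hy2, ?_⟩
    rw [hf]
    simp only
    rw [smul_inv_smul₀ (ne_of_gt hy1.1), Fin.cons_self_tail]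
  refine ⟨Fin.cons (1/2) ((1/2 : ℝ) • x0), interior_maximal hsub hU ⟨?_, ?_⟩⟩
  · simp only [hs, Set.mem_ofPred_eq, Fin.cons_zero]
    constructor <;> norm_num
  · simp only [mem_preimage, hf, Fin.cons_zero, Fin.tail_cons]
    rw [inv_smul_smul₀ (by norm_num : (1/2 : ℝ) ≠ 0)]
    exact hx0

lemma isConvexBody_pyramid {K : Set (Fin n → ℝ)} (hK : IsConvexBody K) :
    IsConvexBody (pyramid K) :=
  ⟨isCompact_pyramid hK.1, convex_pyramid hK.2.1, interior_pyramid_nonempty hK.2.2⟩

lemma IsConvexBody.volume_toReal_ne_zero {K : Set (Fin n → ℝ)} (hK : IsConvexBody K) :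
    (volume K).toReal ≠ 0 := by
  have h1 : 0 < volume K := Measure.measure_pos_of_nonempty_interior volume hK.2.2
  exact (ENNReal.toReal_ne_zero).mpr ⟨h1.ne', hK.1.measure_lt_top.ne⟩

lemma isSimplex_pyramid {S : Set (Fin n → ℝ)} (hS : IsSimplex S) : IsSimplex (pyramid S) := by
  obtain ⟨v, hv, rfl⟩ := hS
  set w : Fin (n + 2) → (Fin (n + 1) → ℝ) :=
    Fin.cons 0 (fun i => (Fin.cons 1 (v i) : Fin (n + 1) → ℝ)) with hw
  refine ⟨w, ?_, ?_⟩
  · rw [affineIndependent_iff_of_fintype]
    intro c hc0 hc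
    rw [Finset.weightedVSub_eq_linear_combination _ hc0] at hc
    rw [Fin.sum_univ_succ] at hc hc0
    simp only [hw, Fin.cons_zero, smul_zero, zero_add, Fin.cons_succ] at hc
    have h0 : ∑ i : Fin (n + 1), c i.succ = 0 := by
      have h1 := congrFun hc 0
      simpa using h1
    have h1 : ∑ i : Fin (n + 1), c i.succ • v i = 0 := by
      ext j
      have h2 := congrFun hc j.succ
      simpa using h2
    have h2 : ∀ i : Fin (n + 1), c i.succ = 0 := by
      have h3 := (affineIndependent_iff_of_fintype ℝ v).mp hv (fun i => c i.succ) h0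
      rw [Finset.weightedVSub_eq_linear_combination _ h0] at h3
      exact h3 h1
    intro i
    refine Fin.cases ?_ (fun j => h2 j) i
    rw [h0] at hc0
    linarith
  · have hconv : Convex ℝ (convexHull ℝ (range v)) := convex_convexHull ℝ _
    apply Subset.antisymm
    · rintro _ ⟨t, ht, x, hx, rfl⟩
      have h0 : (0 : Fin (n + 1) → ℝ) ∈ convexHull ℝ (range w) :=
        subset_convexHull ℝ _ ⟨0, by simp [hw]⟩
      have h1 : ∀ x ∈ convexHull ℝ (range v),
          (Fin.cons 1 x : Fin (n + 1) → ℝ) ∈ convexHull ℝ (range w) := by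
        intro x hx
        have hsub : range v ⊆ {x | (Fin.cons 1 x : Fin (n + 1) → ℝ) ∈ convexHull ℝ (range w)} := by
          rintro _ ⟨i, rfl⟩
          exact subset_convexHull ℝ _ ⟨i.succ, by simp [hw]⟩
        have hcv : Convex ℝ {x | (Fin.cons 1 x : Fin (n + 1) → ℝ) ∈ convexHull ℝ (range w)} := by
          intro x hx y hy a b ha hb hab
          have h2 := (convex_convexHull ℝ (range w)) hx hy ha hb hab
          rw [fin_cons_comb] at h2
          simp only [mul_one] at h2
          rw [hab] at h2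
          exact h2
        exact convexHull_min hsub hcv hx
      have h2 := (convex_convexHull ℝ (range w)) h0 (h1 x hx) (sub_nonneg.mpr ht.2) ht.1
        (by ring)
      have h3 : (0 : Fin (n + 1) → ℝ) = Fin.cons 0 0 := by
        ext i
        refine Fin.cases ?_ (fun j => ?_) i <;> simp
      rw [h3, fin_cons_comb] at h2
      simpa using h2
    · apply convexHull_min _ (convex_pyramid hconv)
      rintro _ ⟨i, rfl⟩
      refine Fin.cases ?_ (fun j => ?_) i
      · refine ⟨0, ⟨le_refl _, zero_le_one⟩, v 0, subset_convexHull ℝ _ ⟨0, rfl⟩, ?_⟩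
        simp only [hw, Fin.cons_zero, zero_smul]
        ext i
        refine Fin.cases ?_ (fun j => ?_) i <;> simp
      · refine ⟨1, ⟨zero_le_one, le_refl _⟩, v j, subset_convexHull ℝ _ ⟨j, rfl⟩, ?_⟩
        simp [hw]

end body

end Vale.Agent.Lib.P254
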