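import Vale.Agent.Lib.P254.Defs

namespace Vale.Agent.Lib.P254

open MeasureTheory Set
open scoped Pointwise

section coneint

variable {n : ℕ}

/-- The pyramid, seen in `ℝ × ℝ^n`. -/
def pyrProd (K : Set (Fin n → ℝ)) : Set (ℝ × (Fin n → ℝ)) :=
  (fun p : ℝ × (Fin n → ℝ) => (p.1, p.1 • p.2)) '' (Icc (0:ℝ) 1 ×ˢ K)

lemma isCompact_pyrProd {K : Set (Fin n → ℝ)} (hK : IsCompact K) : IsCompact (pyrProd K) :=
  (isCompact_Icc.prod hK).image (by fun_prop)

lemma pyramid_eq_preimage (K : Set (Fin n → ℝ)) :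
    pyramid K = (MeasurableEquiv.piFinSuccAbove (fun _ : Fin (n + 1) => ℝ) 0) ⁻¹' (pyrProd K) := by
  ext y
  constructor
  · rintro ⟨t, ht, x, hx, rfl⟩
    refine ⟨(t, x), ⟨ht, hx⟩, ?_⟩
    rfl
  · rintro ⟨⟨t, x⟩, ⟨ht, hx⟩, h⟩
    refine ⟨t, ht, x, hx, ?_⟩
    have h1 : y 0 = t := (congrArg Prod.fst h).symm
    have h2 : Fin.tail y = t • x := (congrArg Prod.snd h).symm
    rw [← h2, ← h1, Fin.cons_self_tail]

theorem integral_pyramid {K : Set (Fin n → ℝ)} (hK : IsCompact K) (a : ℝ → ℝ) (ha : Continuous a)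
    (ψ : (Fin n → ℝ) → ℝ) (hψ : Continuous ψ) :
    ∫ y in pyramid K, a (y 0) * ψ ((y 0)⁻¹ • Fin.tail y)
      = (∫ t in Icc (0:ℝ) 1, a t * t ^ n) * ∫ x in K, ψ x := by
  set e := MeasurableEquiv.piFinSuccAbove (fun _ : Fin (n + 1) => ℝ) 0 with he
  have hmp : MeasurePreserving e volume volume :=
    volume_preserving_piFinSuccAbove (fun _ => ℝ) 0
  set H : ℝ × (Fin n → ℝ) → ℝ := fun p => a p.1 * ψ (p.1⁻¹ • p.2) with hH
  set S := pyrProd K with hSdef
  have hS : MeasurableSet S := (isCompact_pyrProd hK).measurableSet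
  have h1 : ∫ y in pyramid K, a (y 0) * ψ ((y 0)⁻¹ • Fin.tail y) = ∫ p in S, H p := by
    rw [pyramid_eq_preimage]
    exact hmp.setIntegral_preimage_emb e.measurableEmbedding H S
  rw [h1]
  have hHmeas : Measurable H :=
    (ha.measurable.comp measurable_fst).mul
      (hψ.measurable.comp (measurable_fst.inv.smul measurable_snd))
  obtain ⟨A, hA⟩ := isCompact_Icc.exists_bound_of_continuousOn (s := Icc (0:ℝ) 1) ha.continuousOn
  obtain ⟨Ψ, hΨ⟩ := hK.exists_bound_of_continuousOn hψ.continuousOn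
  have hbound : ∀ p ∈ S, ‖H p‖ ≤ |A| * (|Ψ| + |ψ 0|) := by
    rintro _ ⟨⟨t, x⟩, ⟨ht, hx⟩, rfl⟩
    simp only [hH]
    rw [norm_mul]
    apply mul_le_mul ((hA t ht).trans (le_abs_self A)) _ (norm_nonneg _) (abs_nonneg _)
    by_cases ht0 : t = 0
    · subst ht0
      simp only [inv_zero, zero_smul, Real.norm_eq_abs]
      exact le_add_of_nonneg_left (abs_nonneg _)
    · rw [inv_smul_smul₀ ht0]
      exact ((hΨ x hx).trans (le_abs_self _)).trans (le_add_of_nonneg_right (abs_nonneg _))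
  have hint : IntegrableOn H S (volume : Measure (ℝ × (Fin n → ℝ))) := by
    apply Measure.integrableOn_of_bounded (M := |A| * (|Ψ| + |ψ 0|))
      (isCompact_pyrProd hK).measure_lt_top.ne hHmeas.aestronglyMeasurable
    exact (ae_restrict_iff' hS).mpr (Filter.Eventually.of_forall hbound)
  rw [← integral_indicator hS]
  have hfub : ∫ p, S.indicator H p = ∫ t, ∫ z, S.indicator H (t, z) :=
    integral_prod _ (hint.integrable_indicator hS)
  rw [hfub]
  have hinner : ∀ᵐ t ∂(volume : Measure ℝ), ∫ z, S.indicator H (t, z)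
      = (Icc (0:ℝ) 1).indicator (fun t => a t * t ^ n * ∫ x in K, ψ x) t := by
    have h0 : ∀ᵐ t ∂(volume : Measure ℝ), t ≠ 0 := by
      rw [ae_iff]
      simp
    filter_upwards [h0] with t ht0
    by_cases ht : t ∈ Icc (0:ℝ) 1
    · rw [indicator_of_mem ht]
      have htpos : 0 < t := lt_of_le_of_ne ht.1 (Ne.symm ht0)
      have hind : (fun z => S.indicator H (t, z))
          = (t • K).indicator (fun z => a t * ψ (t⁻¹ • z)) := by
        ext z
        by_cases hz : z ∈ t • K
        · rw [indicator_of_mem hz, indicator_of_mem]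
          obtain ⟨x, hx, rfl⟩ := hz
          exact ⟨(t, x), ⟨ht, hx⟩, rfl⟩
        · rw [indicator_of_notMem hz, indicator_of_notMem]
          rintro ⟨⟨t', x⟩, ⟨ht', hx⟩, h⟩
          simp only [Prod.mk.injEq] at h
          obtain ⟨rfl, rfl⟩ := h
          exact hz (smul_mem_smul_set hx)
      rw [hind, integral_indicator (hK.smul t).measurableSet, integral_const_mul]
      have h2 := Measure.setIntegral_comp_smul_of_pos volume ψ (t • K) (inv_pos.mpr htpos)
      rw [h2, inv_smul_smul₀ ht0, Module.finrank_fin_fun, inv_pow, inv_inv, smul_eq_mul]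
      ring
    · rw [indicator_of_notMem ht]
      have h3 : (fun z => S.indicator H (t, z)) = 0 := by
        ext z
        rw [indicator_of_notMem]
        · rfl
        · rintro ⟨⟨t', x⟩, ⟨ht', hx⟩, h⟩
          simp only [Prod.mk.injEq] at h
          exact ht (h.1 ▸ ht')
      rw [h3]
      simp
  rw [integral_congr_ae hinner, integral_indicator measurableSet_Icc, integral_mul_const]

end coneint

end Vale.Agent.Lib.P254
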