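import Vale.Agent.Lib.P254.Main

namespace Vale.Agent.Lib.P254

open MeasureTheory Set
open scoped Pointwise

section converse

variable {n : ℕ}

lemma pyramid_zero_le_one {K : Set (Fin n → ℝ)} {y : Fin (n + 1) → ℝ} (hy : y ∈ pyramid K) :
    y 0 ≤ 1 := by
  obtain ⟨t, ht, x, _, rfl⟩ := hy
  simpa using ht.2

lemma cons_one_mem_pyramid_iff {K : Set (Fin n → ℝ)} (x : Fin n → ℝ) :
    (Fin.cons 1 x : Fin (n + 1) → ℝ) ∈ pyramid K ↔ x ∈ K := by
  constructor
  · rintro ⟨t, _, x', hx', h⟩
    have h0 : (1:ℝ) = t := by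
      have := congrFun h 0
      simpa using this
    have h1 : x = t • x' := by
      have := congrArg Fin.tail h
      simpa using this
    rw [h1, ← h0, one_smul]
    exact hx'
  · intro hx
    exact ⟨1, ⟨zero_le_one, le_refl _⟩, x, hx, by rw [one_smul]⟩

/-- If the pyramid over a convex body `K` is a simplex, then `K` is a simplex. -/
theorem isSimplex_of_isSimplex_pyramid {K : Set (Fin n → ℝ)} (hK : IsConvexBody K)
    (hP : IsSimplex (pyramid K)) : IsSimplex K := by
  classical
  obtain ⟨w, hw, hPw⟩ := hP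
  have hw1 : ∀ j, w j 0 ≤ 1 := fun j =>
    pyramid_zero_le_one (K := K) (by
      rw [hPw]
      exact subset_convexHull ℝ _ ⟨j, rfl⟩)
  let J := {j : Fin (n + 2) // w j 0 = 1}
  let u : J → (Fin n → ℝ) := fun j => Fin.tail (w j.1)
  have hwu : ∀ j : J, w j.1 = Fin.cons 1 (u j) := by
    intro j
    have h1 : (Fin.cons (w j.1 0) (Fin.tail (w j.1)) : Fin (n + 1) → ℝ) = w j.1 :=
      Fin.cons_self_tail (w j.1)
    rw [j.2] at h1
    exact h1.symm
  have huK : ∀ j : J, u j ∈ K := by
    intro j
    rw [← cons_one_mem_pyramid_iff, ← hwu j, hPw]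
    exact subset_convexHull ℝ _ ⟨j.1, rfl⟩
  have hKsub : K ⊆ convexHull ℝ (range u) := by
    intro x hx
    have h1 : (Fin.cons 1 x : Fin (n + 1) → ℝ) ∈ convexHull ℝ (range w) := by
      rw [← hPw]
      exact (cons_one_mem_pyramid_iff x).mpr hx
    rw [convexHull_range_eq_exists_affineCombination] at h1
    obtain ⟨s, c, hc0, hc1, hcx⟩ := h1
    rw [Finset.affineCombination_eq_linear_combination _ _ _ hc1] at hcx
    have hzero : ∀ i ∈ s, c i * (1 - w i 0) = 0 := by
      have hsum : ∑ i ∈ s, c i * (1 - w i 0) = 0 := by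
        have h2 := congrFun hcx 0
        simp only [Finset.sum_apply, Pi.smul_apply, smul_eq_mul, Fin.cons_zero] at h2
        have h3 : ∑ i ∈ s, c i * (1 - w i 0) = ∑ i ∈ s, c i - ∑ i ∈ s, c i * w i 0 := by
          rw [← Finset.sum_sub_distrib]
          apply Finset.sum_congr rfl
          intro i _
          ring
        rw [h3, hc1, h2, sub_self]
      exact (Finset.sum_eq_zero_iff_of_nonneg (fun i hi =>
        mul_nonneg (hc0 i hi) (sub_nonneg.mpr (hw1 i)))).mp hsum
    have hJ : ∀ i ∈ s, c i ≠ 0 → w i 0 = 1 := by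
      intro i hi hci
      have h2 := hzero i hi
      rcases mul_eq_zero.mp h2 with h3 | h3
      · exact absurd h3 hci
      · linarith
    have hx2 : (Fin.cons 1 x : Fin (n + 1) → ℝ)
        ∈ {y : Fin (n + 1) → ℝ | Fin.tail y ∈ convexHull ℝ (range u)} := by
      rw [← hcx]
      have hcv : Convex ℝ {y : Fin (n + 1) → ℝ | Fin.tail y ∈ convexHull ℝ (range u)} := by
        intro y hy y' hy' a b ha hb hab
        have h2 := (convex_convexHull ℝ (range u)) hy hy' ha hb hab
        exact h2
      have hsum1 : ∑ i ∈ s.filter (fun i => c i ≠ 0), c i = 1 := by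
        rw [Finset.sum_filter_ne_zero, hc1]
      have hsum2 : ∑ i ∈ s.filter (fun i => c i ≠ 0), c i • w i = ∑ i ∈ s, c i • w i := by
        apply Finset.sum_filter_of_ne
        intro i _ hne h0
        apply hne
        rw [h0, zero_smul]
      rw [← hsum2]
      apply hcv.sum_mem (fun i hi => hc0 i (Finset.mem_filter.mp hi).1) hsum1
      intro i hi
      have hi' := Finset.mem_filter.mp hi
      have hij : w i 0 = 1 := hJ i hi'.1 hi'.2
      exact subset_convexHull ℝ _ ⟨⟨i, hij⟩, rfl⟩
    simpa using hx2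
  have hKeq : K = convexHull ℝ (range u) :=
    Subset.antisymm hKsub (convexHull_min (by
      rintro _ ⟨j, rfl⟩
      exact huK j) hK.2.1)
  have hu : AffineIndependent ℝ u := by
    rw [affineIndependent_iff_of_fintype]
    intro c hc0 hc
    rw [Finset.weightedVSub_eq_linear_combination _ hc0] at hc
    have hwJ : AffineIndependent ℝ (fun j : J => w j.1) :=
      hw.comp_embedding (Function.Embedding.subtype _)
    have h1 := (affineIndependent_iff_of_fintype ℝ (fun j : J => w j.1)).mp hwJ c hc0
    rw [Finset.weightedVSub_eq_linear_combination _ hc0] at h1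
    apply h1
    ext i
    refine Fin.cases ?_ (fun k => ?_) i
    · simp only [Finset.sum_apply, Pi.smul_apply, smul_eq_mul, Pi.zero_apply]
      have e : ∀ j : J, c j * w j.1 0 = c j := fun j => by rw [j.2, mul_one]
      simp_rw [e]
      exact hc0
    · have h2 := congrFun hc k
      simp only [Finset.sum_apply, Pi.smul_apply, smul_eq_mul, Pi.zero_apply] at h2 ⊢
      exact h2
  have hcard : Fintype.card J = n + 1 := by
    have h1 : (interior (convexHull ℝ (range u))).Nonempty := by
      rw [← hKeq]
      exact hK.2.2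
    rw [interior_convexHull_nonempty_iff_affineSpan_eq_top,
      hu.affineSpan_eq_top_iff_card_eq_finrank_add_one] at h1
    simpa using h1
  let e : Fin (n + 1) ≃ J := (Fintype.equivFinOfCardEq hcard).symm
  refine ⟨u ∘ e, hu.comp_embedding e.toEmbedding, ?_⟩
  rw [e.surjective.range_comp]
  exact hKeq

end converse

end Vale.Agent.Lib.P254
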