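import Vale.Agent.Lib.P254.Moments

namespace Vale.Agent.Lib.P254

open MeasureTheory Set
open scoped Pointwise

section cov

variable {n : ℕ}

lemma setAverage_eq_mul (K : Set (Fin n → ℝ)) (f : (Fin n → ℝ) → ℝ) :
    ⨍ x in K, f x = (volume K).toReal⁻¹ * ∫ x in K, f x := by
  rw [setAverage_eq, measureReal_def, smul_eq_mul]

lemma centroid_eq (K : Set (Fin n → ℝ)) (i : Fin n) :
    centroid K i = (volume K).toReal⁻¹ * ∫ x in K, x i :=
  setAverage_eq_mul K _

lemma covMatrix_eq {K : Set (Fin n → ℝ)} (hK : IsCompact K) (hV : (volume K).toReal ≠ 0)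
    (i j : Fin n) :
    covMatrix K i j
      = (volume K).toReal⁻¹ * (∫ x in K, x i * x j) - centroid K i * centroid K j := by
  unfold covMatrix
  rw [setAverage_eq_mul]
  set b := centroid K with hbdef
  have hb : ∀ i, ∫ x in K, x i = (volume K).toReal * b i := by
    intro i
    rw [hbdef, centroid_eq]
    field_simp
  have hint : ∀ f : (Fin n → ℝ) → ℝ, Continuous f → IntegrableOn f K :=
    fun f hf => hf.continuousOn.integrableOn_compact hK
  have h1 : IntegrableOn (fun x : Fin n → ℝ => x i * x j) K := hint _ (by fun_prop)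
  have h2 : IntegrableOn (fun x : Fin n → ℝ => b j * x i) K := hint _ (by fun_prop)
  have h3 : IntegrableOn (fun x : Fin n → ℝ => b i * x j) K := hint _ (by fun_prop)
  have h4 : IntegrableOn (fun _ : Fin n → ℝ => b i * b j) K := hint _ (by fun_prop)
  have e : ∫ x in K, (x i - b i) * (x j - b j)
      = (∫ x in K, x i * x j) - b j * (∫ x in K, x i) - b i * (∫ x in K, x j)
        + b i * b j * (volume K).toReal := by
    have e1 : (fun x : Fin n → ℝ => (x i - b i) * (x j - b j))
        = (fun x => x i * x j) - (fun x => b j * x i) - (fun x => b i * x j)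
          + (fun _ => b i * b j) := by
      ext x
      simp only [Pi.add_apply, Pi.sub_apply]
      ring
    rw [e1, integral_add' (h1.sub h2 |>.sub h3) h4, integral_sub' (h1.sub h2) h3,
      integral_sub' h1 h2, integral_const_mul, integral_const_mul, setIntegral_const,
      measureReal_def, smul_eq_mul]
    ring
  rw [e, hb i, hb j]
  field_simp
  ring

lemma volume_pyramid {K : Set (Fin n → ℝ)} (hK : IsCompact K) :
    (volume (pyramid K)).toReal = (volume K).toReal / ((n:ℝ) + 1) := by
  have h := (pyramid_moments hK).1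
  rw [setIntegral_const, measureReal_def, smul_eq_mul, mul_one] at h
  rw [h]
  ring

lemma det_pyramid_cov (γ α : ℝ) (b : Fin n → ℝ) (C : Matrix (Fin n) (Fin n) ℝ)
    (M : Matrix (Fin (n + 1)) (Fin (n + 1)) ℝ)
    (h00 : M 0 0 = γ) (h0s : ∀ j : Fin n, M 0 j.succ = γ * b j)
    (hs0 : ∀ i : Fin n, M i.succ 0 = γ * b i)
    (hss : ∀ i j : Fin n, M i.succ j.succ = α * C i j + γ * b i * b j) :
    M.det = γ * α ^ n * C.det := by
  let c : Fin (n + 1) → ℝ := Fin.cons 0 b
  let B : Matrix (Fin (n + 1)) (Fin (n + 1)) ℝ := fun i j => M i j - c i * M 0 j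
  have hB0 : ∀ j, B 0 j = M 0 j := by
    intro j
    simp [B, c]
  have hdet : M.det = B.det :=
    Matrix.det_eq_of_forall_row_eq_smul_add_const c 0 (by simp [c]) (fun i j => by
      rw [hB0]
      simp [B])
  rw [hdet, Matrix.det_succ_column_zero, Fin.sum_univ_succ]
  have hBs0 : ∀ i : Fin n, B i.succ 0 = 0 := by
    intro i
    simp only [B, c, Fin.cons_succ, hs0, h00]
    ring
  have hsub : B.submatrix (Fin.succAbove 0) Fin.succ = α • C := by
    ext i j
    have h1 : B (Fin.succAbove 0 i) j.succ = α * C i j := by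
      rw [Fin.succAbove_zero]
      show M i.succ j.succ - (Fin.cons 0 b : Fin (n + 1) → ℝ) i.succ * M 0 j.succ = α * C i j
      rw [Fin.cons_succ, hss, h0s]
      ring
    exact h1
  simp only [hBs0, mul_zero, zero_mul, Finset.sum_const_zero, add_zero]
  rw [hsub, Matrix.det_smul, hB0, h00]
  simp
  ring

end cov

end Vale.Agent.Lib.P254
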