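import Mathlib

namespace Vale.Agent.Lib.P254

open MeasureTheory

/-- The centroid of `K`: the average of the coordinates over `K` (Lebesgue measure). -/
noncomputable def centroid {n : ℕ} (K : Set (Fin n → ℝ)) : Fin n → ℝ :=
  fun i => ⨍ x in K, x i

/-- The covariance matrix of `K`. -/
noncomputable def covMatrix {n : ℕ} (K : Set (Fin n → ℝ)) : Matrix (Fin n) (Fin n) ℝ :=
  fun i j => ⨍ x in K, (x i - centroid K i) * (x j - centroid K j)

/-- The isotropic constant `L_K = (det Cov(K) / |K|^2)^(1/(2n))`. -/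
noncomputable def isoConst {n : ℕ} (K : Set (Fin n → ℝ)) : ℝ :=
  ((covMatrix K).det / (volume K).toReal ^ 2) ^ (1 / (2 * (n : ℝ)))

/-- Convex bodies: compact convex sets with nonempty interior. -/
def IsConvexBody {n : ℕ} (K : Set (Fin n → ℝ)) : Prop :=
  IsCompact K ∧ Convex ℝ K ∧ (interior K).Nonempty

/-- `n`-simplices in `R^n`: convex hulls of `n + 1` affinely independent points. -/
def IsSimplex {n : ℕ} (S : Set (Fin n → ℝ)) : Prop :=
  ∃ v : Fin (n + 1) → (Fin n → ℝ), AffineIndependent ℝ v ∧ S = convexHull ℝ (Set.range v)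

/-- The pyramid (cone) in `R^(n+1)` with apex `0` over the base `{1} × K`:
the set of points `(t, t x)` with `0 ≤ t ≤ 1` and `x ∈ K`. -/
def pyramid {n : ℕ} (K : Set (Fin n → ℝ)) : Set (Fin (n + 1) → ℝ) :=
  {y | ∃ t ∈ Set.Icc (0 : ℝ) 1, ∃ x ∈ K, y = Fin.cons t (t • x)}

/-- The strong isotropic constant conjecture in dimension `n`: every convex body `K` in `R^n`
satisfies `L_K ≤ L_S` for every `n`-simplex `S`, with equality only if `K` is a simplex. -/
def StrongIsotropicConjecture (n : ℕ) : Prop :=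
  ∀ K S : Set (Fin n → ℝ), IsConvexBody K → IsSimplex S →
    isoConst K ≤ isoConst S ∧ (isoConst K = isoConst S → IsSimplex K)

end Vale.Agent.Lib.P254
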