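import Vale.Agent.Lib.P254.Final

namespace Vale.Agent.Lib.P254

open MeasureTheory Set Matrix

section affine

variable {n : ℕ}

/-- The quantity `det Cov(K) / |K|^2`, whose `1/(2n)`-th power is the isotropic constant. -/
noncomputable def ratio (K : Set (Fin n → ℝ)) : ℝ :=
  (covMatrix K).det / (volume K).toReal ^ 2

/-- The affine map `x ↦ M x + c`. -/
def affMap (M : Matrix (Fin n) (Fin n) ℝ) (c : Fin n → ℝ) (x : Fin n → ℝ) : Fin n → ℝ :=
  M *ᵥ x + c

lemma affMap_apply (M : Matrix (Fin n) (Fin n) ℝ) (c x : Fin n → ℝ) (i : Fin n) :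
    affMap M c x i = ∑ k, M i k * x k + c i := by
  simp [affMap, Matrix.mulVec, dotProduct]

lemma affMap_injective {M : Matrix (Fin n) (Fin n) ℝ} (hM : M.det ≠ 0) (c : Fin n → ℝ) :
    Function.Injective (affMap M c) := by
  intro x y h
  have h1 : M *ᵥ x = M *ᵥ y := by
    unfold affMap at h
    exact add_right_cancel h
  have hu : IsUnit M := (Matrix.isUnit_iff_isUnit_det M).2 (isUnit_iff_ne_zero.2 hM)
  exact Matrix.mulVec_injective_iff_isUnit.2 hu h1

lemma continuous_affMap (M : Matrix (Fin n) (Fin n) ℝ) (c : Fin n → ℝ) :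
    Continuous (affMap M c) := by
  unfold affMap
  exact (Continuous.matrix_mulVec continuous_const continuous_id).add continuous_const

lemma integral_image_affMap {M : Matrix (Fin n) (Fin n) ℝ} (hM : M.det ≠ 0) (c : Fin n → ℝ)
    {s : Set (Fin n → ℝ)} (hs : MeasurableSet s) (g : (Fin n → ℝ) → ℝ) :
    ∫ x in affMap M c '' s, g x = |M.det| * ∫ x in s, g (affMap M c x) := by
  have hderiv : ∀ x ∈ s, HasFDerivWithinAt (affMap M c)
      (LinearMap.toContinuousLinearMap (Matrix.toLin' M)) s x := by
    intro x _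
    have h1 : HasFDerivAt (fun x => (LinearMap.toContinuousLinearMap (Matrix.toLin' M)) x + c)
        (LinearMap.toContinuousLinearMap (Matrix.toLin' M)) x :=
      (ContinuousLinearMap.hasFDerivAt _).add_const c
    exact h1.hasFDerivWithinAt
  rw [integral_image_eq_integral_abs_det_fderiv_smul volume hs hderiv
    (affMap_injective hM c).injOn]
  have hdet : (LinearMap.toContinuousLinearMap (Matrix.toLin' M)).det = M.det := by
    show LinearMap.det ((LinearMap.toContinuousLinearMap (Matrix.toLin' M) :
      (Fin n → ℝ) →L[ℝ] (Fin n → ℝ)) : (Fin n → ℝ) →ₗ[ℝ] (Fin n → ℝ)) = M.det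
    rw [LinearMap.coe_toContinuousLinearMap, LinearMap.det_toLin']
  simp only [hdet, smul_eq_mul]
  rw [integral_const_mul]

lemma volume_image_affMap {M : Matrix (Fin n) (Fin n) ℝ} (hM : M.det ≠ 0) (c : Fin n → ℝ)
    {s : Set (Fin n → ℝ)} (hs : MeasurableSet s) :
    (volume (affMap M c '' s)).toReal = |M.det| * (volume s).toReal := by
  have h := integral_image_affMap hM c hs (fun _ => (1:ℝ))
  rw [setIntegral_const, setIntegral_const, measureReal_def, measureReal_def, smul_eq_mul,
    smul_eq_mul, mul_one, mul_one] at h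
  exact h

lemma integrableOn_of_continuous {K : Set (Fin n → ℝ)} (hK : IsCompact K)
    (f : (Fin n → ℝ) → ℝ) (hf : Continuous f) : IntegrableOn f K :=
  hf.continuousOn.integrableOn_compact hK

lemma centroid_affMap {M : Matrix (Fin n) (Fin n) ℝ} (hM : M.det ≠ 0) (c : Fin n → ℝ)
    {K : Set (Fin n → ℝ)} (hK : IsCompact K) (hV : (volume K).toReal ≠ 0) (i : Fin n) :
    centroid (affMap M c '' K) i = ∑ k, M i k * centroid K k + c i := by
  rw [centroid_eq, integral_image_affMap hM c hK.measurableSet, volume_image_affMap hM c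
    hK.measurableSet]
  have hd : |M.det| ≠ 0 := abs_ne_zero.2 hM
  have e : ∫ x in K, affMap M c x i = ∑ k, M i k * (∫ x in K, x k) + c i * (volume K).toReal := by
    simp only [affMap_apply]
    rw [integral_add, integral_finsetSum, setIntegral_const, measureReal_def, smul_eq_mul]
    · congr 1
      · apply Finset.sum_congr rfl
        intro k _
        rw [integral_const_mul]
      · ring
    · intro k _
      exact integrableOn_of_continuous hK _ (by fun_prop)
    · exact integrableOn_of_continuous hK _ (by fun_prop)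
    · exact integrableOn_of_continuous hK _ (by fun_prop)
  rw [e]
  simp only [centroid_eq]
  have h2 : ∑ k, M i k * ((volume K).toReal⁻¹ * ∫ x in K, x k)
      = (volume K).toReal⁻¹ * ∑ k, M i k * ∫ x in K, x k := by
    rw [Finset.mul_sum]
    apply Finset.sum_congr rfl
    intro k _
    ring
  rw [h2]
  field_simp

lemma covMatrix_affMap {M : Matrix (Fin n) (Fin n) ℝ} (hM : M.det ≠ 0) (c : Fin n → ℝ)
    {K : Set (Fin n → ℝ)} (hK : IsCompact K) (hV : (volume K).toReal ≠ 0) :
    covMatrix (affMap M c '' K) = M * covMatrix K * Mᵀ := by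
  ext i j
  have hd : |M.det| ≠ 0 := abs_ne_zero.2 hM
  have hcov : ∀ k l, ∫ x in K, (x k - centroid K k) * (x l - centroid K l)
      = (volume K).toReal * covMatrix K k l := by
    intro k l
    unfold covMatrix
    rw [setAverage_eq_mul]
    field_simp
  have hpt : ∀ x : Fin n → ℝ, ∀ i, affMap M c x i - centroid (affMap M c '' K) i
      = ∑ k, M i k * (x k - centroid K k) := by
    intro x i
    rw [centroid_affMap hM c hK hV, affMap_apply]
    simp only [mul_sub, Finset.sum_sub_distrib]
    ring
  have e : ∫ x in K, (affMap M c x i - centroid (affMap M c '' K) i)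
      * (affMap M c x j - centroid (affMap M c '' K) j)
      = ∑ k, ∑ l, M i k * M j l * ((volume K).toReal * covMatrix K k l) := by
    simp only [hpt, Finset.sum_mul_sum]
    rw [integral_finsetSum]
    · apply Finset.sum_congr rfl
      intro k _
      rw [integral_finsetSum]
      · apply Finset.sum_congr rfl
        intro l _
        rw [← hcov k l, ← integral_const_mul]
        congr 1
        ext x
        ring
      · intro l _
        exact integrableOn_of_continuous hK _ (by fun_prop)
    · intro k _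
      apply integrable_finsetSum
      intro l _
      exact integrableOn_of_continuous hK _ (by fun_prop)
  show (⨍ x in affMap M c '' K, (x i - centroid (affMap M c '' K) i)
      * (x j - centroid (affMap M c '' K) j)) = _
  rw [setAverage_eq_mul, integral_image_affMap hM c hK.measurableSet,
    volume_image_affMap hM c hK.measurableSet, e]
  simp only [Matrix.mul_apply, Matrix.transpose_apply, Finset.sum_mul, Finset.mul_sum]
  rw [Finset.sum_comm]
  apply Finset.sum_congr rfl
  intro k _
  apply Finset.sum_congr rfl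
  intro l _
  field_simp

/-- Affine invariance of `det Cov(K) / |K|^2`. -/
theorem ratio_affMap {M : Matrix (Fin n) (Fin n) ℝ} (hM : M.det ≠ 0) (c : Fin n → ℝ)
    {K : Set (Fin n → ℝ)} (hK : IsCompact K) :
    ratio (affMap M c '' K) = ratio K := by
  unfold ratio
  by_cases hV : (volume K).toReal = 0
  · rw [volume_image_affMap hM c hK.measurableSet, hV]
    simp
  · rw [covMatrix_affMap hM c hK hV, volume_image_affMap hM c hK.measurableSet,
      Matrix.det_mul, Matrix.det_mul, Matrix.det_transpose, mul_pow, sq_abs]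
    field_simp

/-- `affMap M c` as an affine map. -/
def affMapA (M : Matrix (Fin n) (Fin n) ℝ) (c : Fin n → ℝ) : (Fin n → ℝ) →ᵃ[ℝ] (Fin n → ℝ) where
  toFun := affMap M c
  linear := Matrix.toLin' M
  map_vadd' p v := by
    simp only [affMap, vadd_eq_add, Matrix.mulVec_add, Matrix.toLin'_apply]
    abel

lemma image_convexHull_affMap (M : Matrix (Fin n) (Fin n) ℝ) (c : Fin n → ℝ)
    (s : Set (Fin n → ℝ)) :
    affMap M c '' convexHull ℝ s = convexHull ℝ (affMap M c '' s) :=
  (affMapA M c).image_convexHull s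

lemma isSimplex_image_affMap {M : Matrix (Fin n) (Fin n) ℝ} (hM : M.det ≠ 0) (c : Fin n → ℝ)
    {S : Set (Fin n → ℝ)} (hS : IsSimplex S) : IsSimplex (affMap M c '' S) := by
  obtain ⟨v, hv, rfl⟩ := hS
  refine ⟨affMap M c ∘ v, hv.map' (affMapA M c) (affMap_injective hM c), ?_⟩
  rw [image_convexHull_affMap, ← range_comp]

/-- Hyperplanes are Lebesgue null sets. -/
lemma volume_hyperplane (g : Fin n → ℝ) (hg : g ≠ 0) (r : ℝ) :
    volume {x : Fin n → ℝ | g ⬝ᵥ x = r} = 0 := by
  by_cases hne : ∃ x0 : Fin n → ℝ, g ⬝ᵥ x0 = r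
  · obtain ⟨x0, hx0⟩ := hne
    set ℓ : (Fin n → ℝ) →ₗ[ℝ] ℝ := dotProductBilin ℝ ℝ g with hℓ
    have hℓa : ∀ x, ℓ x = g ⬝ᵥ x := fun x => rfl
    set A : AffineSubspace ℝ (Fin n → ℝ) := AffineSubspace.mk' x0 (LinearMap.ker ℓ) with hA
    have hAtop : A ≠ ⊤ := by
      intro h
      have hmem : x0 + g ∈ A := by
        rw [h]
        exact AffineSubspace.mem_top ℝ _ _
      rw [hA, AffineSubspace.mem_mk', LinearMap.mem_ker, hℓa] at hmem
      have h2 : g ⬝ᵥ g = 0 := by
        simpa using hmem
      exact hg (dotProduct_self_eq_zero.1 h2)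
    have hsub : {x : Fin n → ℝ | g ⬝ᵥ x = r} ⊆ (A : Set (Fin n → ℝ)) := by
      intro x hx
      show x ∈ A
      rw [hA, AffineSubspace.mem_mk', LinearMap.mem_ker, hℓa, vsub_eq_sub, dotProduct_sub]
      have hx' : g ⬝ᵥ x = r := hx
      rw [hx', hx0, sub_self]
    exact measure_mono_null hsub (Measure.addHaar_affineSubspace volume A hAtop)
  · have : {x : Fin n → ℝ | g ⬝ᵥ x = r} = ∅ := by
      ext x
      simp only [mem_empty_iff_false, iff_false]
      intro hx
      exact hne ⟨x, hx⟩
    rw [this, measure_empty]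

end affine

end Vale.Agent.Lib.P254
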