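import Vale.Agent.Lib.P254.FewKq

namespace Vale.Agent.Lib.P254

open MeasureTheory Set Matrix

section det

variable {n : ℕ}

/-- Determinant of a rank three perturbation of the identity. -/
lemma det_one_add_rank3 (q p w : Fin n → ℝ) (ν : ℝ) :
    (1 + Matrix.of (fun i l : Fin n => q i * q l - p i * p l - ν * (w i * w l))).det
      = (1 + q ⬝ᵥ q) * ((1 - p ⬝ᵥ p) * (1 - ν * (w ⬝ᵥ w)) - ν * (p ⬝ᵥ w) * (p ⬝ᵥ w))
        + (q ⬝ᵥ p) * ((q ⬝ᵥ p) * (1 - ν * (w ⬝ᵥ w)) + ν * (p ⬝ᵥ w) * (q ⬝ᵥ w))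
        + (q ⬝ᵥ w) * (ν * (q ⬝ᵥ p) * (p ⬝ᵥ w) + ν * (q ⬝ᵥ w) * (1 - p ⬝ᵥ p)) := by
  set U : Matrix (Fin n) (Fin 3) ℝ := (Matrix.of ![q, p, w])ᵀ with hU
  set W : Matrix (Fin 3) (Fin n) ℝ := Matrix.of ![q, -p, -(ν • w)] with hW
  have hUW : Matrix.of (fun i l : Fin n => q i * q l - p i * p l - ν * (w i * w l)) = U * W := by
    ext i l
    simp [hU, hW, Matrix.mul_apply, Fin.sum_univ_three]
    ring
  have e00 : (W * U) 0 0 = q ⬝ᵥ q := by
    simp [hU, hW, Matrix.mul_apply, dotProduct]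
  have e01 : (W * U) 0 1 = q ⬝ᵥ p := by
    simp [hU, hW, Matrix.mul_apply, dotProduct]
  have e02 : (W * U) 0 2 = q ⬝ᵥ w := by
    simp [hU, hW, Matrix.mul_apply, dotProduct]
  have e10 : (W * U) 1 0 = -(q ⬝ᵥ p) := by
    simp [hU, hW, Matrix.mul_apply, dotProduct, mul_comm]
  have e11 : (W * U) 1 1 = -(p ⬝ᵥ p) := by
    simp [hU, hW, Matrix.mul_apply, dotProduct]
  have e12 : (W * U) 1 2 = -(p ⬝ᵥ w) := by
    simp [hU, hW, Matrix.mul_apply, dotProduct]
  have e20 : (W * U) 2 0 = -(ν * (q ⬝ᵥ w)) := by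
    simp [hU, hW, Matrix.mul_apply, dotProduct, Finset.mul_sum]
    apply Finset.sum_congr rfl
    intro l _
    ring
  have e21 : (W * U) 2 1 = -(ν * (p ⬝ᵥ w)) := by
    simp [hU, hW, Matrix.mul_apply, dotProduct, Finset.mul_sum]
    apply Finset.sum_congr rfl
    intro l _
    ring
  have e22 : (W * U) 2 2 = -(ν * (w ⬝ᵥ w)) := by
    simp [hU, hW, Matrix.mul_apply, dotProduct, Finset.mul_sum]
    apply Finset.sum_congr rfl
    intro l _
    ring
  rw [hUW, det_one_add_mul_comm, det_fin_three]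
  simp only [Matrix.add_apply, e00, e01, e02, e10, e11, e12, e20, e21, e22]
  simp
  ring

lemma scalar_identity (N X Y σ z zp : ℝ) (hσ : σ ≠ 0) (hN : N + 1 ≠ 0)
    (hz : zp = z ∨ zp = 0) (qq qp qw pp pw ww : ℝ)
    (hqq : qq = X + Y - z ^ 2) (hpp : pp = (X - zp ^ 2) / σ ^ 2) (hqp : qp = (X - zp ^ 2) / σ)
    (hqw : qw = (1 - z) + qq - qp) (hpw : pw = (σ - zp) / σ + qp - pp)
    (hww : ww = N + qq + pp + 2 * (1 - z) - 2 * ((σ - zp) / σ) - 2 * qp) :
    (N + 1) * ((1 + qq) * ((1 - pp) * (1 - (1 / (N + 1)) * ww) - (1 / (N + 1)) * pw * pw)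
        + qp * (qp * (1 - (1 / (N + 1)) * ww) + (1 / (N + 1)) * pw * qw)
        + qw * ((1 / (N + 1)) * qp * pw + (1 / (N + 1)) * qw * (1 - pp)))
      = 1 + X + Y - (1 + Y) * X / σ ^ 2 := by
  rw [hww, hpw, hqw, hqp, hpp, hqq]
  rcases hz with rfl | rfl
  · field_simp
    ring
  · field_simp
    ring

/-- Sum of the squares of the positive barycentric coordinates of `q`. -/
noncomputable def posSq (q : Fin n → ℝ) : ℝ := ∑ a, (max (bary q a) 0) ^ 2

/-- Sum of the squares of the negative barycentric coordinates of `q`. -/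
noncomputable def negSq (q : Fin n → ℝ) : ℝ := ∑ a, (max (-(bary q a)) 0) ^ 2

/-- The simplex value `(n!)^2 / ((n+1)^(n+1) (n+2)^n)` of `det Cov / vol^2`. -/
noncomputable def sn (n : ℕ) : ℝ :=
  ((n.factorial : ℝ)) ^ 2 / (((n:ℝ) + 1) ^ (n + 1) * ((n:ℝ) + 2) ^ n)

/-- The ratio of `det Cov / vol^2` of `Kq q` to the simplex value. -/
noncomputable def rho (q : Fin n → ℝ) : ℝ :=
  (1 + posSq q + negSq q - (1 + negSq q) * posSq q / sig q ^ 2) / sig q ^ 2

noncomputable def pvec (q : Fin n → ℝ) : Fin n → ℝ := fun i => max (bary q i.succ) 0 / sig q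

noncomputable def wvec (q : Fin n → ℝ) : Fin n → ℝ := fun i => 1 + q i - pvec q i

lemma sig_pos (q : Fin n → ℝ) : 0 < sig q := by
  obtain ⟨j, hj⟩ := exists_pos_bary q
  unfold sig
  exact Finset.sum_pos' (fun k _ => le_max_right _ _) ⟨j, Finset.mem_univ j, lt_max_of_lt_left hj⟩

lemma volume_Kq_ne_zero (q : Fin n → ℝ) : (volume (Kq q)).toReal ≠ 0 := by
  rw [volume_Kq]
  have h1 := sig_pos q
  have h2 : (0:ℝ) < n.factorial := by exact_mod_cast Nat.factorial_pos n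
  positivity

lemma centroid_Kq (q : Fin n → ℝ) (i : Fin n) :
    centroid (Kq q) i = wvec q i / ((n:ℝ) + 1) := by
  have h := first_Kq q i.succ
  simp only [bary_succ] at h
  have h1 := sig_pos q
  have hf : (n.factorial : ℝ) ≠ 0 := by exact_mod_cast Nat.factorial_ne_zero n
  have f1 : ((n + 1).factorial : ℝ) = ((n:ℝ) + 1) * n.factorial := by
    rw [Nat.factorial_succ]
    push_cast
    ring
  rw [centroid_eq, volume_Kq, h, f1]
  unfold wvec pvec
  simp only [bary_succ]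
  field_simp

lemma covMatrix_Kq (q : Fin n → ℝ) (i l : Fin n) :
    covMatrix (Kq q) i l = (1 / (((n:ℝ) + 1) * ((n:ℝ) + 2)))
      * ((if i = l then 1 else 0) + (q i * q l - pvec q i * pvec q l
          - (1 / ((n:ℝ) + 1)) * (wvec q i * wvec q l))) := by
  have h := second_Kq q i.succ l.succ
  simp only [bary_succ, Fin.succ_inj] at h
  have h1 := sig_pos q
  have hf : (n.factorial : ℝ) ≠ 0 := by exact_mod_cast Nat.factorial_ne_zero n
  have f2 : ((n + 2).factorial : ℝ) = ((n:ℝ) + 2) * (((n:ℝ) + 1) * n.factorial) := by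
    rw [Nat.factorial_succ, Nat.factorial_succ]
    push_cast
    ring
  rw [covMatrix_eq (isCompact_Kq q) (volume_Kq_ne_zero q), centroid_Kq, centroid_Kq, volume_Kq,
    h, f2]
  unfold wvec pvec
  simp only [bary_succ]
  field_simp
  ring

lemma sq_split (t : ℝ) : t ^ 2 = (max t 0) ^ 2 + (max (-t) 0) ^ 2 := by
  rcases le_total 0 t with h | h
  · rw [max_eq_left h, max_eq_right (by linarith)]
    ring
  · rw [max_eq_right h, max_eq_left (by linarith)]
    ring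

lemma mul_max (t : ℝ) : t * max t 0 = (max t 0) ^ 2 := by
  rcases le_total 0 t with h | h
  · rw [max_eq_left h]
    ring
  · rw [max_eq_right h]
    ring

lemma sum_q (q : Fin n → ℝ) : ∑ i, q i = 1 - bary q 0 := by
  rw [bary_zero]
  ring

lemma dot_qq (q : Fin n → ℝ) : q ⬝ᵥ q = posSq q + negSq q - bary q 0 ^ 2 := by
  have h : posSq q + negSq q = ∑ a, bary q a ^ 2 := by
    unfold posSq negSq
    rw [← Finset.sum_add_distrib]
    apply Finset.sum_congr rfl
    intro a _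
    rw [← sq_split]
  rw [h, Fin.sum_univ_succ]
  simp only [bary_succ, dotProduct]
  have : ∑ i, q i * q i = ∑ i, q i ^ 2 := by
    apply Finset.sum_congr rfl
    intro i _
    ring
  rw [this]
  ring

lemma posSq_succ (q : Fin n → ℝ) :
    ∑ i : Fin n, (max (bary q i.succ) 0) ^ 2 = posSq q - (max (bary q 0) 0) ^ 2 := by
  unfold posSq
  rw [Fin.sum_univ_succ]
  ring

lemma sig_succ (q : Fin n → ℝ) :
    ∑ i : Fin n, max (bary q i.succ) 0 = sig q - max (bary q 0) 0 := by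
  unfold sig
  rw [Fin.sum_univ_succ]
  ring

lemma dot_pp (q : Fin n → ℝ) :
    pvec q ⬝ᵥ pvec q = (posSq q - (max (bary q 0) 0) ^ 2) / sig q ^ 2 := by
  rw [← posSq_succ, Finset.sum_div]
  unfold pvec dotProduct
  apply Finset.sum_congr rfl
  intro i _
  have h1 := sig_pos q
  field_simp

lemma dot_qp (q : Fin n → ℝ) :
    q ⬝ᵥ pvec q = (posSq q - (max (bary q 0) 0) ^ 2) / sig q := by
  rw [← posSq_succ, Finset.sum_div]
  unfold pvec dotProduct
  apply Finset.sum_congr rfl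
  intro i _
  simp only [bary_succ]
  rw [← mul_max]
  ring

lemma sum_p (q : Fin n → ℝ) : ∑ i, pvec q i = (sig q - max (bary q 0) 0) / sig q := by
  rw [← sig_succ, Finset.sum_div]
  rfl

lemma dot_qw (q : Fin n → ℝ) :
    q ⬝ᵥ wvec q = (1 - bary q 0) + q ⬝ᵥ q - q ⬝ᵥ pvec q := by
  rw [← sum_q]
  unfold wvec dotProduct
  rw [← Finset.sum_add_distrib, ← Finset.sum_sub_distrib]
  apply Finset.sum_congr rfl
  intro i _
  ring

lemma dot_pw (q : Fin n → ℝ) :
    pvec q ⬝ᵥ wvec q = (sig q - max (bary q 0) 0) / sig q + q ⬝ᵥ pvec q - pvec q ⬝ᵥ pvec q := by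
  rw [← sum_p]
  unfold wvec dotProduct
  rw [← Finset.sum_add_distrib, ← Finset.sum_sub_distrib]
  apply Finset.sum_congr rfl
  intro i _
  ring

lemma dot_ww (q : Fin n → ℝ) :
    wvec q ⬝ᵥ wvec q = (n:ℝ) + q ⬝ᵥ q + pvec q ⬝ᵥ pvec q + 2 * (1 - bary q 0)
      - 2 * ((sig q - max (bary q 0) 0) / sig q) - 2 * (q ⬝ᵥ pvec q) := by
  rw [← sum_p, ← sum_q]
  have hn : (n:ℝ) = ∑ _i : Fin n, (1:ℝ) := by simp
  rw [hn]
  unfold wvec dotProduct
  rw [Finset.mul_sum, Finset.mul_sum, Finset.mul_sum, ← Finset.sum_add_distrib,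
    ← Finset.sum_add_distrib, ← Finset.sum_add_distrib, ← Finset.sum_sub_distrib,
    ← Finset.sum_sub_distrib]
  apply Finset.sum_congr rfl
  intro i _
  ring

/-- The exact value of `det Cov / vol^2` for `Kq q`. -/
theorem ratio_Kq (q : Fin n → ℝ) : ratio (Kq q) = sn n * rho q := by
  have h1 := sig_pos q
  have hf : (n.factorial : ℝ) ≠ 0 := by exact_mod_cast Nat.factorial_ne_zero n
  have hn1 : (n:ℝ) + 1 ≠ 0 := by positivity
  have hn2 : (n:ℝ) + 2 ≠ 0 := by positivity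
  have hcov : covMatrix (Kq q) = (1 / (((n:ℝ) + 1) * ((n:ℝ) + 2)))
      • (1 + Matrix.of (fun i l : Fin n => q i * q l - pvec q i * pvec q l
          - (1 / ((n:ℝ) + 1)) * (wvec q i * wvec q l))) := by
    ext i l
    rw [covMatrix_Kq]
    simp [Matrix.one_apply]
  have hz : max (bary q 0) 0 = bary q 0 ∨ max (bary q 0) 0 = 0 := by
    rcases le_total 0 (bary q 0) with h | h
    · exact Or.inl (max_eq_left h)
    · exact Or.inr (max_eq_right h)
  have hdet := scalar_identity (n:ℝ) (posSq q) (negSq q) (sig q) (bary q 0) (max (bary q 0) 0)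
    h1.ne' hn1 hz (q ⬝ᵥ q) (q ⬝ᵥ pvec q) (q ⬝ᵥ wvec q) (pvec q ⬝ᵥ pvec q)
    (pvec q ⬝ᵥ wvec q) (wvec q ⬝ᵥ wvec q) (dot_qq q) (dot_pp q) (dot_qp q) (dot_qw q)
    (dot_pw q) (dot_ww q)
  rw [← det_one_add_rank3] at hdet
  unfold ratio
  rw [hcov, Matrix.det_smul, Fintype.card_fin, volume_Kq]
  set D := (1 + Matrix.of (fun i l : Fin n => q i * q l - pvec q i * pvec q l
          - (1 / ((n:ℝ) + 1)) * (wvec q i * wvec q l))).det with hD
  have hD' : D = (1 + posSq q + negSq q - (1 + negSq q) * posSq q / sig q ^ 2) / ((n:ℝ) + 1) := by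
    rw [← hdet]
    field_simp
  rw [hD']
  unfold sn rho
  rw [one_div, inv_pow, mul_pow, pow_succ]
  field_simp
  ring

end det

end Vale.Agent.Lib.P254
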