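import Vale.Agent.Lib.P254.FewDet

namespace Vale.Agent.Lib.P254

open MeasureTheory Set Matrix

section ineq

variable {n : ℕ}

lemma isSimplex_stdSimp (n : ℕ) : IsSimplex (stdSimp n) := by
  induction n with
  | zero =>
    haveI : Subsingleton (Fin (0 + 1)) := (inferInstance : Subsingleton (Fin 1))
    refine ⟨fun _ => 0, affineIndependent_of_subsingleton ℝ _, ?_⟩
    have h1 : (convexHull ℝ (range (fun _ : Fin (0 + 1) => (0 : Fin 0 → ℝ)))).Nonempty :=
      ⟨0, subset_convexHull ℝ _ (mem_range_self 0)⟩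
    rw [Subsingleton.eq_univ_of_nonempty h1]
    exact Subsingleton.eq_univ_of_nonempty ⟨0, zero_mem_stdSimp⟩
  | succ n ih =>
    have hsh : (shear : (Fin (n + 1) → ℝ) → Fin (n + 1) → ℝ)
        = affMap (rk1 shearVec (Pi.single 0 1)) 0 := by
      funext y
      exact shear_eq y
    have hdet : (rk1 (shearVec : Fin (n + 1) → ℝ) (Pi.single 0 1)).det ≠ 0 := by
      rw [det_shear]
      exact one_ne_zero
    rw [stdSimp_succ, hsh]
    exact isSimplex_image_affMap hdet 0 (isSimplex_pyramid ih)

lemma max_sub_max_neg (t : ℝ) : max t 0 - max (-t) 0 = t := by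
  rcases le_total 0 t with h | h
  · rw [max_eq_left h, max_eq_right (by linarith)]
    ring
  · rw [max_eq_right h, max_eq_left (by linarith)]
    ring

lemma sig_eq (q : Fin n → ℝ) : sig q = 1 + ∑ a, max (-(bary q a)) 0 := by
  have h : sig q - ∑ a, max (-(bary q a)) 0 = 1 := by
    unfold sig
    rw [← Finset.sum_sub_distrib, ← sum_bary q]
    apply Finset.sum_congr rfl
    intro a _
    exact max_sub_max_neg _
  linarith

lemma posSq_le (q : Fin n → ℝ) : posSq q ≤ sig q ^ 2 :=
  Finset.sum_sq_le_sq_sum_of_nonneg (fun _ _ => le_max_right _ _)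

lemma negSq_le (q : Fin n → ℝ) : negSq q ≤ (∑ a, max (-(bary q a)) 0) ^ 2 :=
  Finset.sum_sq_le_sq_sum_of_nonneg (fun _ _ => le_max_right _ _)

lemma one_sub_rho (q : Fin n → ℝ) :
    1 - rho q = (sig q ^ 2 - (1 + negSq q)) * (sig q ^ 2 - posSq q) / sig q ^ 4 := by
  have h := sig_pos q
  unfold rho
  field_simp
  ring

lemma rho_le_one (q : Fin n → ℝ) : rho q ≤ 1 := by
  have h := sig_pos q
  have h1 := posSq_le q
  have h2 := negSq_le q
  have h3 := sig_eq q
  have hm : 0 ≤ ∑ a, max (-(bary q a)) 0 := Finset.sum_nonneg (fun _ _ => le_max_right _ _)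
  have h4 : 0 ≤ sig q ^ 2 - (1 + negSq q) := by
    rw [h3]
    nlinarith
  have h5 : 0 ≤ (sig q ^ 2 - (1 + negSq q)) * (sig q ^ 2 - posSq q) / sig q ^ 4 :=
    div_nonneg (mul_nonneg h4 (by linarith)) (by positivity)
  rw [← one_sub_rho] at h5
  linarith

lemma rho_eq_one (q : Fin n → ℝ) (hq : rho q = 1) :
    (∀ a, 0 ≤ bary q a) ∨ (∃ j, 0 < bary q j ∧ ∀ k, k ≠ j → bary q k ≤ 0) := by
  have h := sig_pos q
  have h1 := posSq_le q
  have h2 := negSq_le q
  have h3 := sig_eq q
  have hm : 0 ≤ ∑ a, max (-(bary q a)) 0 := Finset.sum_nonneg (fun _ _ => le_max_right _ _)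
  have h5 := one_sub_rho q
  rw [hq, sub_self] at h5
  have h6 : (sig q ^ 2 - (1 + negSq q)) * (sig q ^ 2 - posSq q) = 0 := by
    have h7 : sig q ^ 4 ≠ 0 := by positivity
    field_simp at h5
    linarith
  rcases mul_eq_zero.1 h6 with h7 | h7
  · left
    have hm0 : ∑ a, max (-(bary q a)) 0 = 0 := by
      rw [h3] at h7
      nlinarith
    intro a
    have h8 := (Finset.sum_eq_zero_iff_of_nonneg (fun a _ => le_max_right (-(bary q a)) 0)).1 hm0 a
      (Finset.mem_univ a)
    have h9 : -(bary q a) ≤ max (-(bary q a)) 0 := le_max_left _ _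
    linarith
  · right
    obtain ⟨j, hj⟩ := exists_pos_bary q
    refine ⟨j, hj, ?_⟩
    have hterm : ∀ a ∈ (Finset.univ : Finset (Fin (n + 1))),
        0 ≤ max (bary q a) 0 * (sig q - max (bary q a) 0) := by
      intro a _
      apply mul_nonneg (le_max_right _ _)
      have : max (bary q a) 0 ≤ sig q :=
        Finset.single_le_sum (f := fun a => max (bary q a) 0) (fun _ _ => le_max_right _ _)
          (Finset.mem_univ a)
      linarith
    have hsum : ∑ a, max (bary q a) 0 * (sig q - max (bary q a) 0) = 0 := by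
      have e : ∑ a, max (bary q a) 0 * (sig q - max (bary q a) 0) = sig q * sig q - posSq q := by
        simp only [mul_sub, Finset.sum_sub_distrib]
        rw [← Finset.sum_mul]
        unfold posSq sig
        congr 1
        apply Finset.sum_congr rfl
        intro a _
        ring
      rw [e]
      linarith
    have hz := (Finset.sum_eq_zero_iff_of_nonneg hterm).1 hsum
    have hjσ : sig q = max (bary q j) 0 := by
      have h8 := hz j (Finset.mem_univ j)
      rw [max_eq_left hj.le] at h8 ⊢
      rcases mul_eq_zero.1 h8 with h9 | h9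
      · linarith
      · linarith
    intro k hk
    have hpair : max (bary q j) 0 + max (bary q k) 0 ≤ sig q := by
      have hsub : ({j, k} : Finset (Fin (n + 1))) ⊆ Finset.univ := Finset.subset_univ _
      have := Finset.sum_le_sum_of_subset_of_nonneg (f := fun a => max (bary q a) 0) hsub
        (fun _ _ _ => le_max_right _ _)
      rw [Finset.sum_pair (Ne.symm hk)] at this
      exact this
    have h10 : max (bary q k) 0 ≤ 0 := by linarith
    exact le_trans (le_max_left _ _) h10

lemma isSimplex_Kq_of_rho (q : Fin n → ℝ) (hq : rho q = 1) : IsSimplex (Kq q) := by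
  rcases rho_eq_one q hq with h | ⟨j, hj, hk⟩
  · have hmem : q ∈ stdSimp n := h
    have e : Kq q = stdSimp n := by
      rw [Kq, stdSimp_eq_convexHull]
      apply subset_antisymm
      · apply convexHull_min _ (convex_convexHull ℝ _)
        intro x hx
        rcases hx with rfl | hx
        · rw [← stdSimp_eq_convexHull]
          exact hmem
        · exact subset_convexHull ℝ _ hx
      · exact convexHull_mono (subset_insert _ _)
    rw [e]
    exact isSimplex_stdSimp n
  · have e : Kq q = piece q j := by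
      rw [Kq_eq_iUnion]
      apply subset_antisymm
      · apply iUnion_subset
        intro k
        by_cases hkj : k = j
        · rw [hkj]
        · rw [piece_eq_empty (not_lt.2 (hk k hkj))]
          exact empty_subset _
      · exact subset_iUnion (fun k => piece q k) j
    have hdet : (rk1 (hvec j) (q - stdV j)).det ≠ 0 := by
      rw [det_phi]
      exact hj.ne'
    rw [e, piece_eq_image hj, phi_eq_affMap]
    exact isSimplex_image_affMap hdet _ (isSimplex_stdSimp n)

lemma sn_pos (n : ℕ) : 0 < sn n := by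
  unfold sn
  have h2 : (0:ℝ) < n.factorial := by exact_mod_cast Nat.factorial_pos n
  positivity

lemma Kq_zero : Kq (0 : Fin n → ℝ) = stdSimp n := by
  rw [Kq, stdSimp_eq_convexHull]
  have h : (0 : Fin n → ℝ) ∈ range (stdV : Fin (n + 1) → Fin n → ℝ) := ⟨0, by simp [stdV]⟩
  rw [insert_eq_of_mem h]

lemma rho_zero : rho (0 : Fin n → ℝ) = 1 := by
  have hb0 : bary (0 : Fin n → ℝ) 0 = 1 := by simp
  have hbs : ∀ i : Fin n, bary (0 : Fin n → ℝ) i.succ = 0 := by
    intro i
    simp
  have h1 : sig (0 : Fin n → ℝ) = 1 := by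
    unfold sig
    rw [Fin.sum_univ_succ]
    simp [hb0, hbs]
  have h2 : posSq (0 : Fin n → ℝ) = 1 := by
    unfold posSq
    rw [Fin.sum_univ_succ]
    simp [hb0, hbs]
  have h3 : negSq (0 : Fin n → ℝ) = 0 := by
    unfold negSq
    rw [Fin.sum_univ_succ]
    simp [hb0, hbs]
  unfold rho
  rw [h1, h2, h3]
  norm_num

lemma ratio_stdSimp (n : ℕ) : ratio (stdSimp n) = sn n := by
  rw [← Kq_zero, ratio_Kq, rho_zero, mul_one]

end ineq

end Vale.Agent.Lib.P254
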