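import Vale.Agent.Lib.P254.FewPieces

namespace Vale.Agent.Lib.P254

open MeasureTheory Set Matrix

section kq

variable {n : ℕ}

/-- The total positive mass of the barycentric coordinates of `q`. -/
noncomputable def sig (q : Fin n → ℝ) : ℝ := ∑ j, max (bary q j) 0

lemma piece_first (q : Fin n → ℝ) (j a : Fin (n + 1)) :
    ∫ x in stdSimp n, bary (phi q j x) a
      = (1 + bary q a - if a = j then 1 else 0) / ((n + 1).factorial : ℝ) := by
  obtain ⟨-, h1, -⟩ := stdSimp_moments n
  have i1 : IntegrableOn (fun x : Fin n → ℝ => bary x a) (stdSimp n) :=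
    integrableOn_of_continuous isCompact_stdSimp _ (continuous_bary a)
  have i2 : IntegrableOn (fun x : Fin n → ℝ =>
      (bary q a - if a = j then 1 else 0) * bary x j) (stdSimp n) :=
    integrableOn_of_continuous isCompact_stdSimp _ ((continuous_bary j).const_mul _)
  have e : (fun x : Fin n → ℝ => bary (phi q j x) a)
      = (fun x => bary x a) + (fun x => (bary q a - if a = j then 1 else 0) * bary x j) := by
    funext x
    simp only [Pi.add_apply, bary_phi]
    ring
  rw [e, integral_add' i1 i2, integral_const_mul, h1, h1]
  ring

lemma piece_second (q : Fin n → ℝ) (j a b : Fin (n + 1)) :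
    ∫ x in stdSimp n, bary (phi q j x) a * bary (phi q j x) b
      = ((1 + (if a = b then 1 else 0) + bary q a + bary q b + 2 * bary q a * bary q b)
          - (if a = j then 1 + bary q b else 0) - (if b = j then 1 + bary q a else 0))
        / ((n + 2).factorial : ℝ) := by
  obtain ⟨-, -, h2⟩ := stdSimp_moments n
  set da : ℝ := bary q a - if a = j then 1 else 0 with hda
  set db : ℝ := bary q b - if b = j then 1 else 0 with hdb
  have hc : ∀ u v : Fin (n + 1), Continuous (fun x : Fin n → ℝ => bary x u * bary x v) :=
    fun u v => (continuous_bary u).mul (continuous_bary v)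
  have i1 : IntegrableOn (fun x : Fin n → ℝ => bary x a * bary x b) (stdSimp n) :=
    integrableOn_of_continuous isCompact_stdSimp _ (hc a b)
  have i2 : IntegrableOn (fun x : Fin n → ℝ => db * (bary x a * bary x j)) (stdSimp n) :=
    integrableOn_of_continuous isCompact_stdSimp _ ((hc a j).const_mul _)
  have i3 : IntegrableOn (fun x : Fin n → ℝ => da * (bary x j * bary x b)) (stdSimp n) :=
    integrableOn_of_continuous isCompact_stdSimp _ ((hc j b).const_mul _)
  have i4 : IntegrableOn (fun x : Fin n → ℝ => da * db * (bary x j * bary x j)) (stdSimp n) :=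
    integrableOn_of_continuous isCompact_stdSimp _ ((hc j j).const_mul _)
  have e : (fun x : Fin n → ℝ => bary (phi q j x) a * bary (phi q j x) b)
      = (fun x => bary x a * bary x b) + (fun x => db * (bary x a * bary x j))
        + (fun x => da * (bary x j * bary x b)) + (fun x => da * db * (bary x j * bary x j)) := by
    funext x
    simp only [Pi.add_apply, bary_phi, hda, hdb]
    ring
  rw [e, integral_add' ((i1.add i2).add i3) i4, integral_add' (i1.add i2) i3,
    integral_add' i1 i2, integral_const_mul, integral_const_mul, integral_const_mul,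
    h2, h2, h2, h2, hda, hdb]
  generalize ((n + 2).factorial : ℝ) = N
  by_cases haj : a = j
  · by_cases hbj : b = j
    · subst haj
      subst hbj
      simp
      ring
    · subst haj
      have hab : ¬ a = b := fun h => hbj h.symm
      simp [hbj, hab]
      ring
  · by_cases hbj : b = j
    · subst hbj
      simp [haj]
      ring
    · have hjb : ¬ j = b := fun h => hbj h.symm
      by_cases hab : a = b
      · subst hab
        simp [haj, hjb]
        ring
      · simp [haj, hbj, hjb, hab]
        ring

lemma sum_max_ite (q : Fin n → ℝ) (a : Fin (n + 1)) (t : ℝ) :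
    ∑ j, max (bary q j) 0 * (if a = j then t else 0) = max (bary q a) 0 * t := by
  rw [Finset.sum_eq_single a]
  · simp
  · intro j _ hj
    rw [if_neg (Ne.symm hj), mul_zero]
  · intro h
    exact absurd (Finset.mem_univ a) h

lemma volume_Kq (q : Fin n → ℝ) :
    (volume (Kq q)).toReal = sig q / (n.factorial : ℝ) := by
  obtain ⟨h0, -, -⟩ := stdSimp_moments n
  have h := integral_Kq q (fun _ => (1:ℝ)) continuous_const
  rw [setIntegral_const, measureReal_def, smul_eq_mul, mul_one] at h
  rw [h]
  simp only [h0]
  rw [← Finset.sum_mul, sig]
  ring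

lemma first_Kq (q : Fin n → ℝ) (a : Fin (n + 1)) :
    ∫ x in Kq q, bary x a
      = (sig q * (1 + bary q a) - max (bary q a) 0) / ((n + 1).factorial : ℝ) := by
  rw [integral_Kq q (fun x => bary x a) (continuous_bary a)]
  simp only [piece_first]
  have key : ∀ j, max (bary q j) 0
      * ((1 + bary q a - if a = j then 1 else 0) / ((n + 1).factorial : ℝ))
      = max (bary q j) 0 * ((1 + bary q a) / ((n + 1).factorial : ℝ))
        - max (bary q j) 0 * (if a = j then 1 / ((n + 1).factorial : ℝ) else 0) := by
    intro j
    split_ifs <;> ring
  simp only [key, Finset.sum_sub_distrib, sum_max_ite]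
  rw [← Finset.sum_mul, sig]
  ring

lemma second_Kq (q : Fin n → ℝ) (a b : Fin (n + 1)) :
    ∫ x in Kq q, bary x a * bary x b
      = (sig q * (1 + (if a = b then 1 else 0) + bary q a + bary q b + 2 * bary q a * bary q b)
          - max (bary q a) 0 * (1 + bary q b) - max (bary q b) 0 * (1 + bary q a))
        / ((n + 2).factorial : ℝ) := by
  rw [integral_Kq q (fun x => bary x a * bary x b) ((continuous_bary a).mul (continuous_bary b))]
  simp only [piece_second]
  have key : ∀ j, max (bary q j) 0
      * (((1 + (if a = b then 1 else 0) + bary q a + bary q b + 2 * bary q a * bary q b)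
          - (if a = j then 1 + bary q b else 0) - (if b = j then 1 + bary q a else 0))
        / ((n + 2).factorial : ℝ))
      = max (bary q j) 0 * ((1 + (if a = b then 1 else 0) + bary q a + bary q b
          + 2 * bary q a * bary q b) / ((n + 2).factorial : ℝ))
        - max (bary q j) 0 * (if a = j then (1 + bary q b) / ((n + 2).factorial : ℝ) else 0)
        - max (bary q j) 0 * (if b = j then (1 + bary q a) / ((n + 2).factorial : ℝ) else 0) := by
    intro j
    split_ifs <;> ring
  simp only [key, Finset.sum_sub_distrib, sum_max_ite]
  rw [← Finset.sum_mul, sig]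
  ring

end kq

end Vale.Agent.Lib.P254
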