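import Vale.Agent.Lib.P254.FewIneq

namespace Vale.Agent.Lib.P254

open MeasureTheory Set Matrix

section main

variable {n : ℕ}

lemma exists_affMap_of_affineIndependent (w : Fin (n + 1) → (Fin n → ℝ))
    (hw : AffineIndependent ℝ w) :
    ∃ (M : Matrix (Fin n) (Fin n) ℝ) (c : Fin n → ℝ), M.det ≠ 0 ∧
      ∀ k, affMap M c (stdV k) = w k := by
  set M : Matrix (Fin n) (Fin n) ℝ := Matrix.of (fun i k => w k.succ i - w 0 i) with hM
  refine ⟨M, w 0, ?_, ?_⟩
  · have hli : LinearIndependent ℝ
        (fun i : {x : Fin (n + 1) // x ≠ 0} => (w i -ᵥ w 0 : Fin n → ℝ)) :=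
      (affineIndependent_iff_linearIndependent_vsub ℝ w 0).1 hw
    have hinj : Function.Injective
        (fun k : Fin n => (⟨k.succ, Fin.succ_ne_zero k⟩ : {x : Fin (n + 1) // x ≠ 0})) := by
      intro a b h
      simpa using h
    have hli2 := hli.comp _ hinj
    have hcol : M.col = fun k : Fin n => w k.succ - w 0 := by
      funext k i
      simp [hM, Matrix.col_apply]
    have hu : IsUnit M := by
      apply Matrix.linearIndependent_cols_iff_isUnit.1
      rw [hcol]
      exact hli2
    exact ((Matrix.isUnit_iff_isUnit_det M).1 hu).ne_zero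
  · intro k
    refine Fin.cases ?_ (fun i => ?_) k
    · simp [affMap, stdV]
    · ext l
      simp [affMap, stdV, hM]

lemma exists_simplex_insert (v : Fin (n + 2) → (Fin n → ℝ))
    (hint : (interior (convexHull ℝ (range v))).Nonempty) :
    ∃ (w : Fin (n + 1) → (Fin n → ℝ)) (q' : Fin n → ℝ), AffineIndependent ℝ w ∧
      convexHull ℝ (range v) = convexHull ℝ (insert q' (range w)) := by
  have hspan : affineSpan ℝ (range v) = ⊤ :=
    interior_convexHull_nonempty_iff_affineSpan_eq_top.1 hint
  obtain ⟨t, htv, htspan, hti⟩ := exists_affineIndependent ℝ (Fin n → ℝ) (range v)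
  have htfin : t.Finite := (finite_range v).subset htv
  haveI : Fintype t := htfin.fintype
  have hcard : Fintype.card t = n + 1 := by
    have h := hti.affineSpan_eq_top_iff_card_eq_finrank_add_one.1
      (by rw [Subtype.range_coe, htspan, hspan])
    simpa using h
  let e : t ≃ Fin (n + 1) := Fintype.equivFinOfCardEq hcard
  set w : Fin (n + 1) → (Fin n → ℝ) := fun k => (e.symm k : Fin n → ℝ) with hw
  have hwi : AffineIndependent ℝ w := hti.comp_embedding e.symm.toEmbedding
  have hrange : range w = t := by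
    ext x
    constructor
    · rintro ⟨k, rfl⟩
      exact (e.symm k).2
    · intro hx
      exact ⟨e ⟨x, hx⟩, by simp [hw]⟩
  have hd : (range v \ t).ncard ≤ 1 := by
    have h1 : (range v).ncard ≤ n + 2 := by
      rw [← image_univ]
      calc (v '' univ).ncard ≤ (univ : Set (Fin (n + 2))).ncard := ncard_image_le finite_univ
        _ = n + 2 := by simp
    have h2 : t.ncard = n + 1 := by
      rw [ncard_eq_toFinset_card' t, toFinset_card, hcard]
    have h3 := ncard_sdiff_add_ncard_of_subset htv (finite_range v)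
    omega
  have hsub : ∀ a ∈ range v \ t, ∀ b ∈ range v \ t, a = b :=
    (ncard_le_one ((finite_range v).sdiff)).1 hd
  obtain ⟨q', hq', hcover⟩ : ∃ q' ∈ range v, range v ⊆ insert q' t := by
    by_cases hne : (range v \ t).Nonempty
    · obtain ⟨q', hq'⟩ := hne
      refine ⟨q', hq'.1, ?_⟩
      intro x hx
      by_cases hxt : x ∈ t
      · exact mem_insert_of_mem _ hxt
      · rw [hsub x ⟨hx, hxt⟩ q' hq']
        exact mem_insert _ _
    · rw [not_nonempty_iff_eq_empty, sdiff_eq_empty] at hne
      exact ⟨w 0, htv (e.symm 0).2, fun x hx => mem_insert_of_mem _ (hne hx)⟩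
  refine ⟨w, q', hwi, ?_⟩
  rw [hrange]
  congr 1
  exact subset_antisymm hcover (insert_subset hq' htv)

lemma exists_normal_form (v : Fin (n + 2) → (Fin n → ℝ))
    (hint : (interior (convexHull ℝ (range v))).Nonempty) :
    ∃ (M : Matrix (Fin n) (Fin n) ℝ) (c q : Fin n → ℝ), M.det ≠ 0 ∧
      convexHull ℝ (range v) = affMap M c '' Kq q := by
  obtain ⟨w, q', hw, hK⟩ := exists_simplex_insert v hint
  obtain ⟨M, c, hM, hMw⟩ := exists_affMap_of_affineIndependent w hw
  have hu : IsUnit M.det := isUnit_iff_ne_zero.2 hM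
  set q : Fin n → ℝ := M⁻¹ *ᵥ (q' - c) with hq
  have hq' : affMap M c q = q' := by
    rw [affMap, hq, Matrix.mulVec_mulVec, Matrix.mul_nonsing_inv M hu, Matrix.one_mulVec]
    abel
  refine ⟨M, c, q, hM, ?_⟩
  have hr : range (affMap M c ∘ stdV) = range w := by
    congr 1
    funext k
    exact hMw k
  rw [hK, Kq, image_convexHull_affMap, image_insert_eq, hq', ← range_comp, hr]

lemma exists_affMap_of_isSimplex {S : Set (Fin n → ℝ)} (hS : IsSimplex S) :
    ∃ (M : Matrix (Fin n) (Fin n) ℝ) (c : Fin n → ℝ), M.det ≠ 0 ∧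
      S = affMap M c '' stdSimp n := by
  obtain ⟨w, hw, rfl⟩ := hS
  obtain ⟨M, c, hM, hMw⟩ := exists_affMap_of_affineIndependent w hw
  refine ⟨M, c, hM, ?_⟩
  have hr : range (affMap M c ∘ stdV) = range w := by
    congr 1
    funext k
    exact hMw k
  rw [stdSimp_eq_convexHull, image_convexHull_affMap, ← range_comp, hr]

/-- The strong isotropic constant conjecture holds for polytopes with at most `n + 2`
vertices. -/
theorem few_vertices (hn : 1 ≤ n) (v : Fin (n + 2) → (Fin n → ℝ))
    (hK : IsConvexBody (convexHull ℝ (range v))) {S : Set (Fin n → ℝ)} (hS : IsSimplex S) :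
    isoConst (convexHull ℝ (range v)) ≤ isoConst S ∧
    (isoConst (convexHull ℝ (range v)) = isoConst S → IsSimplex (convexHull ℝ (range v))) := by
  obtain ⟨M, c, q, hM, hKq⟩ := exists_normal_form v hK.2.2
  obtain ⟨M', c', hM', hS'⟩ := exists_affMap_of_isSimplex hS
  have hcS : IsCompact S := hS.isConvexBody.1
  have hrK : ratio (convexHull ℝ (range v)) = sn n * rho q := by
    rw [hKq, ratio_affMap hM c (isCompact_Kq q), ratio_Kq]
  have hrS : ratio S = sn n := by
    rw [hS', ratio_affMap hM' c' isCompact_stdSimp, ratio_stdSimp]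
  have hsn := sn_pos n
  constructor
  · rw [isoConst_le_iff hK.1 hcS hn]
    show ratio _ ≤ ratio _
    rw [hrK, hrS]
    have := rho_le_one q
    nlinarith
  · intro heq
    have h1 : isoConst (convexHull ℝ (range v)) ^ (2 * n) = isoConst S ^ (2 * n) := by rw [heq]
    rw [isoConst_pow hK.1 hn, isoConst_pow hcS hn] at h1
    have h2 : ratio (convexHull ℝ (range v)) = ratio S := h1
    rw [hrK, hrS] at h2
    have h3 : rho q = 1 := by
      have : sn n * rho q = sn n * 1 := by rw [h2, mul_one]
      exact mul_left_cancel₀ hsn.ne' this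
    rw [hKq]
    exact isSimplex_image_affMap hM c (isSimplex_Kq_of_rho q h3)

end main

end Vale.Agent.Lib.P254
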