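import Vale.Agent.Lib.P254.FewStdMoments

namespace Vale.Agent.Lib.P254

open MeasureTheory Set Matrix

section pieces

variable {n : ℕ}

/-- The convex hull of the standard simplex and one more point `q`. -/
def Kq (q : Fin n → ℝ) : Set (Fin n → ℝ) :=
  convexHull ℝ (insert q (range (stdV : Fin (n + 1) → Fin n → ℝ)))

/-- The affine map fixing the vertices of the standard simplex other than `stdV j` and sending
`stdV j` to `q`. -/
def phi (q : Fin n → ℝ) (j : Fin (n + 1)) (x : Fin n → ℝ) : Fin n → ℝ :=
  x + bary x j • (q - stdV j)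

/-- The `j`-th piece of the triangulation of `Kq q` (empty unless `bary q j > 0`). -/
def piece (q : Fin n → ℝ) (j : Fin (n + 1)) : Set (Fin n → ℝ) :=
  {x | 0 < bary q j ∧ 0 ≤ bary x j ∧ ∀ k, bary q k * bary x j ≤ bary q j * bary x k}

lemma bary_eq_hvec (x : Fin n → ℝ) (k : Fin (n + 1)) : bary x k = hvec k ⬝ᵥ x + bary 0 k := by
  rw [hvec_dot]
  ring

lemma bary_comb (x y : Fin n → ℝ) {a b : ℝ} (hab : a + b = 1) (k : Fin (n + 1)) :
    bary (a • x + b • y) k = a * bary x k + b * bary y k := by
  refine Fin.cases ?_ (fun i => ?_) k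
  · simp [Finset.sum_add_distrib, ← Finset.mul_sum]
    linear_combination (-1:ℝ) * hab
  · simp

lemma hvec_dot_sub (k j : Fin (n + 1)) (q : Fin n → ℝ) :
    hvec k ⬝ᵥ (q - stdV j) = bary q k - if k = j then 1 else 0 := by
  rw [dotProduct_sub, hvec_dot, hvec_dot, bary_stdV]
  ring

lemma bary_phi (q : Fin n → ℝ) (j : Fin (n + 1)) (x : Fin n → ℝ) (k : Fin (n + 1)) :
    bary (phi q j x) k = bary x k + bary x j * (bary q k - if k = j then 1 else 0) := by
  rw [phi, bary_add_smul, hvec_dot_sub]

lemma phi_eq_affMap (q : Fin n → ℝ) (j : Fin (n + 1)) :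
    phi q j = affMap (rk1 (hvec j) (q - stdV j)) (bary 0 j • (q - stdV j)) := by
  funext x
  rw [affMap, rk1_mulVec, phi, bary_eq_hvec x j, add_smul, add_assoc]

lemma det_phi (q : Fin n → ℝ) (j : Fin (n + 1)) :
    (rk1 (hvec j) (q - stdV j)).det = bary q j := by
  rw [det_rk1, hvec_dot_sub, if_pos rfl]
  ring

lemma phi_stdV (q : Fin n → ℝ) (j k : Fin (n + 1)) :
    phi q j (stdV k) = if k = j then q else stdV k := by
  rw [phi, bary_stdV]
  by_cases h : k = j
  · subst h
    simp
  · rw [if_neg (fun h' => h h'.symm), if_neg h]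
    simp

lemma piece_eq_image {q : Fin n → ℝ} {j : Fin (n + 1)} (hj : 0 < bary q j) :
    piece q j = phi q j '' stdSimp n := by
  ext y
  constructor
  · rintro ⟨_, hy0, hy⟩
    have e1 : bary y j + -(bary y j / bary q j) * (bary q j - 1) = bary y j / bary q j := by
      field_simp
      ring
    refine ⟨y + (-(bary y j / bary q j)) • (q - stdV j), ?_, ?_⟩
    · intro k
      rw [bary_add_smul, hvec_dot_sub]
      by_cases hk : k = j
      · rw [if_pos hk, hk, e1]
        exact div_nonneg hy0 hj.le
      · rw [if_neg hk, sub_zero]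
        have h := hy k
        have e2 : bary y k + -(bary y j / bary q j) * bary q k
            = (bary q j * bary y k - bary q k * bary y j) / bary q j := by
          field_simp
          ring
        rw [e2]
        exact div_nonneg (by linarith) hj.le
    · rw [phi, bary_add_smul, hvec_dot_sub, if_pos rfl, e1, add_assoc, ← add_smul]
      simp
  · rintro ⟨x, hx, rfl⟩
    refine ⟨hj, ?_, ?_⟩
    · rw [bary_phi, if_pos rfl]
      have e : bary x j + bary x j * (bary q j - 1) = bary x j * bary q j := by ring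
      rw [e]
      exact mul_nonneg (hx j) hj.le
    · intro k
      rw [bary_phi, bary_phi, if_pos rfl]
      by_cases hk : k = j
      · rw [if_pos hk, hk]
      · rw [if_neg hk]
        have h1 := mul_nonneg hj.le (hx k)
        have e : bary q j * (bary x k + bary x j * (bary q k - 0))
            - bary q k * (bary x j + bary x j * (bary q j - 1)) = bary q j * bary x k := by ring
        linarith

lemma piece_eq_empty {q : Fin n → ℝ} {j : Fin (n + 1)} (hj : ¬ 0 < bary q j) :
    piece q j = ∅ := by
  ext x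
  simp only [piece, mem_empty_iff_false, iff_false]
  rintro ⟨h, _⟩
  exact hj h

lemma continuous_phi (q : Fin n → ℝ) (j : Fin (n + 1)) : Continuous (phi q j) := by
  rw [phi_eq_affMap]
  exact continuous_affMap _ _

lemma measurableSet_piece (q : Fin n → ℝ) (j : Fin (n + 1)) : MeasurableSet (piece q j) := by
  by_cases hj : 0 < bary q j
  · rw [piece_eq_image hj]
    exact (isCompact_stdSimp.image (continuous_phi q j)).measurableSet
  · rw [piece_eq_empty hj]
    exact MeasurableSet.empty

lemma piece_subset_Kq (q : Fin n → ℝ) (j : Fin (n + 1)) : piece q j ⊆ Kq q := by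
  by_cases hj : 0 < bary q j
  · rw [piece_eq_image hj, stdSimp_eq_convexHull, phi_eq_affMap, image_convexHull_affMap, Kq]
    apply convexHull_mono
    rintro _ ⟨_, ⟨k, rfl⟩, rfl⟩
    rw [← phi_eq_affMap, phi_stdV]
    by_cases hk : k = j
    · rw [if_pos hk]
      exact mem_insert _ _
    · rw [if_neg hk]
      exact mem_insert_of_mem _ (mem_range_self k)
  · rw [piece_eq_empty hj]
    exact empty_subset _

lemma exists_pos_bary (q : Fin n → ℝ) : ∃ j, 0 < bary q j := by
  by_contra h
  push Not at h
  have h1 : ∑ k, bary q k ≤ 0 := Finset.sum_nonpos (fun k _ => h k)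
  rw [sum_bary] at h1
  linarith

lemma Kq_subset_iUnion (q : Fin n → ℝ) : Kq q ⊆ ⋃ j, piece q j := by
  intro x hx
  rw [Kq, convexHull_insert (range_nonempty _), mem_convexJoin] at hx
  obtain ⟨q', hq', y, hy, a, b, ha, hb, hab, hx⟩ := hx
  rw [mem_singleton_iff.1 hq'] at hx
  subst hx
  rw [← stdSimp_eq_convexHull] at hy
  set J : Finset (Fin (n + 1)) := Finset.univ.filter (fun j => 0 < bary q j) with hJ
  have hJne : J.Nonempty := by
    obtain ⟨j, hj⟩ := exists_pos_bary q
    exact ⟨j, by simp [hJ, hj]⟩
  obtain ⟨j, hjJ, hmin⟩ := Finset.exists_min_image J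
    (fun j => bary (a • q + b • y) j / bary q j) hJne
  have hj : 0 < bary q j := by
    simpa [hJ] using hjJ
  rw [mem_iUnion]
  refine ⟨j, hj, ?_, ?_⟩
  · rw [bary_comb q y hab]
    exact add_nonneg (mul_nonneg ha hj.le) (mul_nonneg hb (hy j))
  · intro k
    by_cases hk : 0 < bary q k
    · have h := hmin k (by simp [hJ, hk])
      rw [div_le_div_iff₀ hj hk] at h
      linarith
    · push Not at hk
      rw [bary_comb q y hab, bary_comb q y hab]
      have h1 : bary q k * (b * bary y j) ≤ 0 :=
        mul_nonpos_of_nonpos_of_nonneg hk (mul_nonneg hb (hy j))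
      have h2 : 0 ≤ bary q j * (b * bary y k) := mul_nonneg hj.le (mul_nonneg hb (hy k))
      have e : bary q j * (a * bary q k + b * bary y k) - bary q k * (a * bary q j + b * bary y j)
          = bary q j * (b * bary y k) - bary q k * (b * bary y j) := by ring
      linarith

lemma Kq_eq_iUnion (q : Fin n → ℝ) : Kq q = ⋃ j, piece q j :=
  subset_antisymm (Kq_subset_iUnion q) (iUnion_subset (piece_subset_Kq q))

lemma isCompact_Kq (q : Fin n → ℝ) : IsCompact (Kq q) :=
  ((finite_range _).insert q).isCompact_convexHull (𝕜 := ℝ)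

lemma piece_inter_null (q : Fin n → ℝ) {j j' : Fin (n + 1)} (hne : j ≠ j') :
    volume (piece q j ∩ piece q j') = 0 := by
  by_cases hj : 0 < bary q j
  swap
  · rw [piece_eq_empty hj, empty_inter, measure_empty]
  by_cases hj' : 0 < bary q j'
  swap
  · rw [piece_eq_empty hj', inter_empty, measure_empty]
  set g : Fin n → ℝ := bary q j' • hvec j - bary q j • hvec j' with hg
  have hg0 : g ≠ 0 := by
    intro h
    have h1 : g ⬝ᵥ ((stdV j : Fin n → ℝ) - stdV j') = bary q j' + bary q j := by
      rw [hg, sub_dotProduct, smul_dotProduct, smul_dotProduct, hvec_dot_sub, hvec_dot_sub,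
        bary_stdV, bary_stdV, if_pos rfl, if_pos rfl, if_neg hne, if_neg (Ne.symm hne)]
      simp
    rw [h, zero_dotProduct] at h1
    linarith
  apply measure_mono_null _
    (volume_hyperplane g hg0 (bary q j * bary 0 j' - bary q j' * bary 0 j))
  rintro x ⟨⟨_, _, h1⟩, ⟨_, _, h2⟩⟩
  have e1 := h1 j'
  have e2 := h2 j
  show g ⬝ᵥ x = _
  rw [hg, sub_dotProduct, smul_dotProduct, smul_dotProduct, hvec_dot, hvec_dot]
  simp only [smul_eq_mul]
  linarith

lemma integral_Kq (q : Fin n → ℝ) (g : (Fin n → ℝ) → ℝ) (hg : Continuous g) :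
    ∫ x in Kq q, g x = ∑ j, max (bary q j) 0 * ∫ x in stdSimp n, g (phi q j x) := by
  have hint : IntegrableOn g (⋃ j, piece q j) := by
    rw [← Kq_eq_iUnion]
    exact hg.continuousOn.integrableOn_compact (isCompact_Kq q)
  have hd : Pairwise (Function.onFun (AEDisjoint volume) (fun j => piece q j)) := by
    intro j j' hne
    exact piece_inter_null q hne
  rw [Kq_eq_iUnion, integral_iUnion_ae (fun j => (measurableSet_piece q j).nullMeasurableSet) hd
    hint, tsum_fintype]
  apply Finset.sum_congr rfl
  intro j _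
  by_cases hj : 0 < bary q j
  · have hdet : (rk1 (hvec j) (q - stdV j)).det ≠ 0 := by
      rw [det_phi]
      exact hj.ne'
    rw [piece_eq_image hj, phi_eq_affMap, integral_image_affMap hdet _
      isCompact_stdSimp.measurableSet, det_phi, abs_of_pos hj, max_eq_left hj.le]
  · rw [piece_eq_empty hj, setIntegral_empty, max_eq_right (not_lt.1 hj), zero_mul]

end pieces

end Vale.Agent.Lib.P254
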