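import Vale.Agent.Lib.P254.FewAffine

namespace Vale.Agent.Lib.P254

open MeasureTheory Set Matrix

section simplex

variable {n : ℕ}

/-- Barycentric coordinates of `x` with respect to the standard simplex `0, e_1, ..., e_n`:
the coordinate at `0` is `1 - ∑ x i`, the others are the coordinates of `x`. -/
def bary (x : Fin n → ℝ) : Fin (n + 1) → ℝ := Fin.cons (1 - ∑ i, x i) x

/-- The vertices `0, e_1, ..., e_n` of the standard simplex. -/
def stdV : Fin (n + 1) → (Fin n → ℝ) := Fin.cons 0 (fun k => Pi.single k 1)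

/-- The standard simplex `{x | x i ≥ 0, ∑ x i ≤ 1}`. -/
def stdSimp (n : ℕ) : Set (Fin n → ℝ) := {x | ∀ k, 0 ≤ bary x k}

/-- The linear parts of the barycentric coordinate functions. -/
def hvec (k : Fin (n + 1)) : Fin n → ℝ :=
  Fin.cases (fun _ => (-1:ℝ)) (fun i => Pi.single i (1:ℝ)) k

@[simp] lemma bary_zero (x : Fin n → ℝ) : bary x 0 = 1 - ∑ i, x i := by
  simp [bary]

@[simp] lemma bary_succ (x : Fin n → ℝ) (k : Fin n) : bary x k.succ = x k := by
  simp [bary]

lemma sum_bary (x : Fin n → ℝ) : ∑ k, bary x k = 1 := by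
  rw [Fin.sum_univ_succ]
  simp

lemma hvec_dot (k : Fin (n + 1)) (x : Fin n → ℝ) : hvec k ⬝ᵥ x = bary x k - bary 0 k := by
  refine Fin.cases ?_ (fun i => ?_) k
  · simp [hvec, dotProduct]
  · simp [hvec, dotProduct, Pi.single_apply]

lemma bary_add_smul (x u : Fin n → ℝ) (t : ℝ) (k : Fin (n + 1)) :
    bary (x + t • u) k = bary x k + t * (hvec k ⬝ᵥ u) := by
  rw [hvec_dot]
  refine Fin.cases ?_ (fun i => ?_) k
  · simp [Finset.sum_add_distrib, Finset.mul_sum]
    ring
  · simp

lemma continuous_bary (k : Fin (n + 1)) : Continuous (fun x : Fin n → ℝ => bary x k) := by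
  refine Fin.cases ?_ (fun i => ?_) k
  · simp only [bary_zero]
    fun_prop
  · simp only [bary_succ]
    fun_prop

lemma bary_stdV (j k : Fin (n + 1)) :
    bary (stdV j : Fin n → ℝ) k = if k = j then 1 else 0 := by
  refine Fin.cases ?_ (fun i => ?_) j
  · refine Fin.cases ?_ (fun l => ?_) k
    · simp [stdV]
    · simp [stdV, Fin.succ_ne_zero]
  · refine Fin.cases ?_ (fun l => ?_) k
    · simp [stdV, (Fin.succ_ne_zero i).symm]
    · simp [stdV, Pi.single_apply]

lemma sum_bary_smul_stdV (x : Fin n → ℝ) : ∑ k, bary x k • (stdV k : Fin n → ℝ) = x := by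
  rw [Fin.sum_univ_succ]
  ext i
  simp [stdV, Finset.sum_apply, Pi.single_apply]

lemma convex_stdSimp : Convex ℝ (stdSimp n) := by
  intro x hx y hy a b ha hb hab k
  have e : bary (a • x + b • y) k = a * bary x k + b * bary y k := by
    refine Fin.cases ?_ (fun i => ?_) k
    · simp [Finset.sum_add_distrib, ← Finset.mul_sum]
      linear_combination (-1:ℝ) * hab
    · simp
  rw [e]
  exact add_nonneg (mul_nonneg ha (hx k)) (mul_nonneg hb (hy k))

lemma stdV_mem_stdSimp (j : Fin (n + 1)) : (stdV j : Fin n → ℝ) ∈ stdSimp n := by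
  intro k
  rw [bary_stdV]
  split_ifs <;> norm_num

lemma stdSimp_eq_convexHull : stdSimp n = convexHull ℝ (range (stdV : Fin (n + 1) → Fin n → ℝ)) := by
  apply subset_antisymm
  · intro x hx
    rw [← sum_bary_smul_stdV x]
    exact (convex_convexHull ℝ _).sum_mem (fun k _ => hx k) (sum_bary x)
      (fun k _ => subset_convexHull ℝ _ (mem_range_self k))
  · apply convexHull_min _ convex_stdSimp
    rintro _ ⟨j, rfl⟩
    exact stdV_mem_stdSimp j

lemma isCompact_stdSimp : IsCompact (stdSimp n) := by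
  rw [stdSimp_eq_convexHull]
  exact (finite_range _).isCompact_convexHull (𝕜 := ℝ)

end simplex

end Vale.Agent.Lib.P254
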