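import Vale.Agent.Lib.P254.FewSimplex

namespace Vale.Agent.Lib.P254

open MeasureTheory Set Matrix

section std

variable {n : ℕ}

/-- The matrix `1 + u vᵀ` of the map `x ↦ x + (v ⬝ᵥ x) • u`. -/
def rk1 (v u : Fin n → ℝ) : Matrix (Fin n) (Fin n) ℝ :=
  1 + replicateCol (Fin 1) u * replicateRow (Fin 1) v

lemma rk1_mulVec (v u x : Fin n → ℝ) : rk1 v u *ᵥ x = x + (v ⬝ᵥ x) • u := by
  rw [rk1, Matrix.add_mulVec, Matrix.one_mulVec]
  ext i
  simp only [Pi.add_apply, Pi.smul_apply, smul_eq_mul, Matrix.mulVec, dotProduct,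
    Matrix.mul_apply, replicateCol_apply, replicateRow_apply, Finset.univ_unique,
    Finset.sum_singleton]
  congr 1
  rw [Finset.sum_mul]
  apply Finset.sum_congr rfl
  intro j _
  ring

lemma det_rk1 (v u : Fin n → ℝ) : (rk1 v u).det = 1 + v ⬝ᵥ u :=
  det_one_add_replicateCol_mul_replicateRow u v

/-- The shear `y ↦ (y 0 - ∑ y (k+1), y 1, ..., y n)`. -/
def shear (y : Fin (n + 1) → ℝ) : Fin (n + 1) → ℝ :=
  Fin.cons (y 0 - ∑ k : Fin n, y k.succ) (Fin.tail y)

def shearVec : Fin (n + 1) → ℝ := Fin.cons 0 (fun _ => -1)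

lemma shear_eq (y : Fin (n + 1) → ℝ) :
    shear y = affMap (rk1 shearVec (Pi.single 0 1)) 0 y := by
  rw [affMap, rk1_mulVec, add_zero]
  ext i
  refine Fin.cases ?_ (fun k => ?_) i
  · simp [shear, shearVec, dotProduct, Fin.sum_univ_succ]
    ring
  · simp [shear, shearVec, Fin.tail]

lemma det_shear : (rk1 (shearVec : Fin (n + 1) → ℝ) (Pi.single 0 1)).det = 1 := by
  rw [det_rk1]
  simp [shearVec, dotProduct, Fin.sum_univ_succ]

lemma bary_shear_cons (t : ℝ) (x : Fin n → ℝ) :
    bary (shear (Fin.cons t (t • x))) = Fin.cons (1 - t) (t • bary x) := by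
  ext k
  refine Fin.cases ?_ (fun l => ?_) k
  · simp [shear, Fin.sum_univ_succ, Fin.tail]
  · rw [bary_succ, Fin.cons_succ]
    refine Fin.cases ?_ (fun m => ?_) l
    · simp [shear]
      rw [← Finset.mul_sum]
      ring
    · simp [shear]

lemma zero_mem_stdSimp : (0 : Fin n → ℝ) ∈ stdSimp n := by
  intro k
  refine Fin.cases ?_ (fun i => ?_) k
  · simp
  · simp

lemma stdSimp_succ : stdSimp (n + 1) = shear '' pyramid (stdSimp n) := by
  ext z
  constructor
  · intro hz
    have hz0 : 0 ≤ 1 - ∑ i, z i := by simpa using hz 0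
    have hzs : ∀ i, 0 ≤ z i := fun i => by simpa using hz i.succ
    set t := ∑ i, z i with ht
    have ht0 : 0 ≤ t := Finset.sum_nonneg (fun i _ => hzs i)
    have ht1 : t ≤ 1 := by linarith
    have htail : ∑ k : Fin n, z k.succ = t - z 0 := by
      rw [ht, Fin.sum_univ_succ]
      ring
    by_cases h0 : t = 0
    · have hall : ∀ i, z i = 0 := by
        intro i
        have := (Finset.sum_eq_zero_iff_of_nonneg (fun i _ => hzs i)).1 (ht.symm.trans h0) i
          (Finset.mem_univ i)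
        exact this
      refine ⟨Fin.cons 0 ((0:ℝ) • (0 : Fin n → ℝ)), ⟨0, ⟨le_refl _, zero_le_one⟩, 0,
        zero_mem_stdSimp, rfl⟩, ?_⟩
      ext i
      refine Fin.cases ?_ (fun k => ?_) i
      · simp [shear, hall]
      · simp [shear, Fin.tail, hall]
    · have htpos : 0 < t := lt_of_le_of_ne ht0 (Ne.symm h0)
      refine ⟨Fin.cons t (t • (t⁻¹ • Fin.tail z)), ⟨t, ⟨ht0, ht1⟩, t⁻¹ • Fin.tail z, ?_, rfl⟩, ?_⟩
      · intro k
        refine Fin.cases ?_ (fun i => ?_) k
        · simp only [bary_zero, Pi.smul_apply, smul_eq_mul, Fin.tail]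
          rw [← Finset.mul_sum, htail]
          have : 1 - t⁻¹ * (t - z 0) = t⁻¹ * z 0 := by
            field_simp
            ring
          rw [this]
          exact mul_nonneg (inv_nonneg.2 ht0) (hzs 0)
        · simp only [bary_succ, Pi.smul_apply, smul_eq_mul, Fin.tail]
          exact mul_nonneg (inv_nonneg.2 ht0) (hzs _)
      · rw [smul_smul, mul_inv_cancel₀ h0, one_smul]
        ext i
        refine Fin.cases ?_ (fun k => ?_) i
        · simp only [shear, Fin.cons_zero, Fin.cons_succ, Fin.tail]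
          rw [htail]
          ring
        · simp [shear, Fin.tail]
  · rintro ⟨y, ⟨t, ht, x, hx, rfl⟩, rfl⟩
    intro k
    rw [bary_shear_cons]
    refine Fin.cases ?_ (fun i => ?_) k
    · simp only [Fin.cons_zero]
      linarith [ht.2]
    · simp only [Fin.cons_succ, Pi.smul_apply, smul_eq_mul]
      exact mul_nonneg ht.1 (hx i)

lemma bary_shear_zero (y : Fin (n + 1) → ℝ) : bary (shear y) 0 = 1 - y 0 := by
  simp [shear, Fin.sum_univ_succ, Fin.tail]

lemma bary_shear_succ {K : Set (Fin n → ℝ)} {y : Fin (n + 1) → ℝ} (hy : y ∈ pyramid K)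
    (k : Fin (n + 1)) :
    bary (shear y) k.succ = y 0 * bary ((y 0)⁻¹ • Fin.tail y) k := by
  obtain ⟨t, _, x, _, rfl⟩ := hy
  rw [bary_shear_cons]
  simp only [Fin.cons_succ, Fin.cons_zero, Fin.tail_cons, Pi.smul_apply, smul_eq_mul]
  by_cases ht : t = 0
  · simp [ht]
  · rw [smul_smul, inv_mul_cancel₀ ht, one_smul]

end std

end Vale.Agent.Lib.P254
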