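import Vale.Agent.Lib.P254.FewStd

namespace Vale.Agent.Lib.P254

open MeasureTheory Set Matrix

section stdmoments

variable {n : ℕ}

lemma integral_Icc_quad (c0 c1 c2 : ℝ) (m : ℕ) :
    ∫ t in Icc (0:ℝ) 1, (c0 + c1 * t + c2 * (t * t)) * t ^ m
      = c0 / ((m:ℝ) + 1) + c1 / ((m:ℝ) + 2) + c2 / ((m:ℝ) + 3) := by
  have e : ∀ t : ℝ, (c0 + c1 * t + c2 * (t * t)) * t ^ m
      = c0 * t ^ m + c1 * t ^ (m + 1) + c2 * t ^ (m + 2) := by
    intro t
    ring
  simp only [e]
  rw [integral_Icc_eq_integral_Ioc, ← intervalIntegral.integral_of_le zero_le_one,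
    intervalIntegral.integral_add, intervalIntegral.integral_add,
    intervalIntegral.integral_const_mul, intervalIntegral.integral_const_mul,
    intervalIntegral.integral_const_mul, integral_pow, integral_pow, integral_pow]
  · simp
    ring
  all_goals exact (by fun_prop : Continuous _).intervalIntegrable _ _

lemma integral_stdSimp_succ (c0 c1 c2 : ℝ) (ψ : (Fin n → ℝ) → ℝ) (hψ : Continuous ψ)
    (F : (Fin (n + 1) → ℝ) → ℝ)
    (hF : ∀ y ∈ pyramid (stdSimp n),
      F (shear y) = (c0 + c1 * y 0 + c2 * (y 0 * y 0)) * ψ ((y 0)⁻¹ • Fin.tail y)) :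
    ∫ z in stdSimp (n + 1), F z
      = (c0 / ((n:ℝ) + 1) + c1 / ((n:ℝ) + 2) + c2 / ((n:ℝ) + 3)) * ∫ x in stdSimp n, ψ x := by
  have hsh : (shear : (Fin (n + 1) → ℝ) → Fin (n + 1) → ℝ)
      = affMap (rk1 shearVec (Pi.single 0 1)) 0 := by
    funext y
    exact shear_eq y
  have hdet : (rk1 (shearVec : Fin (n + 1) → ℝ) (Pi.single 0 1)).det ≠ 0 := by
    rw [det_shear]
    exact one_ne_zero
  rw [stdSimp_succ, hsh, integral_image_affMap hdet 0 (measurableSet_pyramid isCompact_stdSimp),
    det_shear, abs_one, one_mul, ← integral_Icc_quad,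
    ← integral_pyramid isCompact_stdSimp (fun t => c0 + c1 * t + c2 * (t * t)) (by fun_prop) ψ hψ]
  apply setIntegral_congr_fun (measurableSet_pyramid isCompact_stdSimp)
  intro y hy
  simp only
  rw [← hsh, hF y hy]

theorem stdSimp_moments (n : ℕ) :
    (∫ _x in stdSimp n, (1:ℝ)) = 1 / (n.factorial : ℝ) ∧
    (∀ a, ∫ x in stdSimp n, bary x a = 1 / ((n + 1).factorial : ℝ)) ∧
    (∀ a b, ∫ x in stdSimp n, bary x a * bary x b
      = (if a = b then 2 else 1) / ((n + 2).factorial : ℝ)) := by
  induction n with
  | zero =>
    have hb : ∀ (x : Fin 0 → ℝ) (a : Fin 1), bary x a = 1 := by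
      intro x a
      rw [Fin.fin_one_eq_zero a]
      simp
    have hs : stdSimp 0 = univ := by
      ext x
      simp only [stdSimp, Set.mem_ofPred_eq, mem_univ, iff_true]
      intro k
      rw [hb]
      exact zero_le_one
    have hvol : (volume (univ : Set (Fin 0 → ℝ))).toReal = 1 := by
      rw [volume_pi, Measure.pi_empty_univ]
      simp
    have h1 : (∫ _x in stdSimp 0, (1:ℝ)) = 1 := by
      rw [hs, setIntegral_const, measureReal_def, hvol]
      simp
    refine ⟨?_, ?_, ?_⟩
    · rw [h1]
      simp
    · intro a
      simp only [hb]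
      rw [h1]
      simp
    · intro a b
      simp only [hb, mul_one]
      rw [h1, Fin.fin_one_eq_zero a, Fin.fin_one_eq_zero b]
      simp
  | succ n ih =>
    obtain ⟨h0, h1, h2⟩ := ih
    have f1 : ((n + 1).factorial : ℝ) = ((n:ℝ) + 1) * n.factorial := by
      rw [Nat.factorial_succ]
      push_cast
      ring
    have f2 : ((n + 1 + 1).factorial : ℝ) = ((n:ℝ) + 2) * (((n:ℝ) + 1) * n.factorial) := by
      rw [Nat.factorial_succ, Nat.factorial_succ]
      push_cast
      ring
    have f3 : ((n + 1 + 2).factorial : ℝ)
        = ((n:ℝ) + 3) * (((n:ℝ) + 2) * (((n:ℝ) + 1) * n.factorial)) := by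
      rw [Nat.factorial_succ, Nat.factorial_succ, Nat.factorial_succ]
      push_cast
      ring
    have hf : (n.factorial : ℝ) ≠ 0 := by
      exact_mod_cast Nat.factorial_ne_zero n
    have hn1 : (n:ℝ) + 1 ≠ 0 := by positivity
    have hn2 : (n:ℝ) + 2 ≠ 0 := by positivity
    have hn3 : (n:ℝ) + 3 ≠ 0 := by positivity
    refine ⟨?_, ?_, ?_⟩
    · rw [integral_stdSimp_succ 1 0 0 (fun _ => 1) continuous_const (fun _ => 1)
        (by intro y _; ring), h0, f1]
      field_simp
      ring
    · intro a
      refine Fin.cases ?_ (fun k => ?_) a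
      · rw [integral_stdSimp_succ 1 (-1) 0 (fun _ => 1) continuous_const (fun z => bary z 0)
          (by intro y _; simp only [bary_shear_zero]; ring), h0, f2]
        field_simp
        ring
      · rw [integral_stdSimp_succ 0 1 0 (fun x => bary x k) (continuous_bary k)
          (fun z => bary z k.succ)
          (by intro y hy; simp only [bary_shear_succ hy]; ring), h1 k, f2, f1]
        field_simp
        ring
    · intro a b
      refine Fin.cases ?_ (fun k => ?_) a
      · refine Fin.cases ?_ (fun l => ?_) b
        · rw [integral_stdSimp_succ 1 (-2) 1 (fun _ => 1) continuous_const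
            (fun z => bary z 0 * bary z 0)
            (by intro y _; simp only [bary_shear_zero]; ring), h0, f3]
          simp only [if_true]
          field_simp
          ring
        · rw [integral_stdSimp_succ 0 1 (-1) (fun x => bary x l) (continuous_bary l)
            (fun z => bary z 0 * bary z l.succ)
            (by intro y hy; simp only [bary_shear_zero, bary_shear_succ hy]; ring), h1 l, f3, f1]
          rw [if_neg (Fin.succ_ne_zero l).symm]
          field_simp
          ring
      · refine Fin.cases ?_ (fun l => ?_) b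
        · rw [integral_stdSimp_succ 0 1 (-1) (fun x => bary x k) (continuous_bary k)
            (fun z => bary z k.succ * bary z 0)
            (by intro y hy; simp only [bary_shear_zero, bary_shear_succ hy]; ring), h1 k, f3, f1]
          rw [if_neg (Fin.succ_ne_zero k)]
          field_simp
          ring
        · rw [integral_stdSimp_succ 0 0 1 (fun x => bary x k * bary x l)
            ((continuous_bary k).mul (continuous_bary l))
            (fun z => bary z k.succ * bary z l.succ)
            (by intro y hy; simp only [bary_shear_succ hy]; ring), h2 k l, f3, f2]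
          by_cases hkl : k = l
          · rw [if_pos hkl, if_pos (by rw [hkl])]
            field_simp
            ring
          · rw [if_neg hkl, if_neg (fun h => hkl (Fin.succ_injective _ h))]
            field_simp
            ring

end stdmoments

end Vale.Agent.Lib.P254
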