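import Vale.Agent.Lib.P254.Converse

namespace Vale.Agent.Lib.P254

open MeasureTheory Set
open scoped Pointwise

section final

variable {n : ℕ}

/-- Pyramids transfer the comparison with simplices between dimensions `n` and `n + 1`. -/
theorem pyramid_transfer (hn : 1 ≤ n) {K S : Set (Fin n → ℝ)} (hK : IsConvexBody K)
    (hS : IsSimplex S) :
    IsConvexBody (pyramid K) ∧ IsSimplex (pyramid S) ∧
    (isoConst (pyramid K) ≤ isoConst (pyramid S) ↔ isoConst K ≤ isoConst S) ∧
    (isoConst (pyramid K) = isoConst (pyramid S) ↔ isoConst K = isoConst S) ∧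
    (IsSimplex (pyramid K) ↔ IsSimplex K) := by
  have h1 := isoConst_pyramid_le_iff hK hS.isConvexBody hn
  have h2 := isoConst_pyramid_le_iff hS.isConvexBody hK hn
  refine ⟨isConvexBody_pyramid hK, isSimplex_pyramid hS, h1, ?_,
    ⟨isSimplex_of_isSimplex_pyramid hK, isSimplex_pyramid⟩⟩
  constructor
  · intro h
    exact le_antisymm (h1.mp h.le) (h2.mp h.ge)
  · intro h
    exact le_antisymm (h1.mpr h.le) (h2.mpr h.ge)

theorem conjecture_descent_succ (hn : 1 ≤ n) (h : StrongIsotropicConjecture (n + 1)) :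
    StrongIsotropicConjecture n := by
  intro K S hK hS
  obtain ⟨hb, hs, hle, heq, hsimp⟩ := pyramid_transfer hn hK hS
  obtain ⟨h1, h2⟩ := h (pyramid K) (pyramid S) hb hs
  exact ⟨hle.mp h1, fun h3 => hsimp.mp (h2 (heq.mpr h3))⟩

theorem conjecture_descent (n m : ℕ) (hn : 1 ≤ n) (hnm : n ≤ m)
    (h : StrongIsotropicConjecture m) : StrongIsotropicConjecture n := by
  induction m, hnm using Nat.le_induction with
  | base => exact h
  | succ m hm ih => exact ih (conjecture_descent_succ (le_trans hn hm) h)

end final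

end Vale.Agent.Lib.P254
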