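import Vale.Agent.Lib.P254.Cov

namespace Vale.Agent.Lib.P254

open MeasureTheory Set
open scoped Pointwise

section formula

variable {n : ℕ}

lemma pyramid_eq_image (K : Set (Fin n → ℝ)) :
    pyramid K = (fun p : ℝ × (Fin n → ℝ) => (Fin.cons p.1 (p.1 • p.2) : Fin (n + 1) → ℝ)) ''
      (Icc (0:ℝ) 1 ×ˢ K) := by
  ext y
  constructor
  · rintro ⟨t, ht, x, hx, rfl⟩
    exact ⟨(t, x), ⟨ht, hx⟩, rfl⟩
  · rintro ⟨⟨t, x⟩, ⟨ht, hx⟩, rfl⟩
    exact ⟨t, ht, x, hx, rfl⟩

lemma isCompact_pyramid {K : Set (Fin n → ℝ)} (hK : IsCompact K) : IsCompact (pyramid K) := by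
  rw [pyramid_eq_image]
  apply (isCompact_Icc.prod hK).image
  exact Continuous.finCons continuous_fst (continuous_fst.smul continuous_snd)

/-- The covariance matrix of the pyramid in terms of the centroid and covariance of the base. -/
theorem pyramid_cov {K : Set (Fin n → ℝ)} (hK : IsCompact K) (hV : (volume K).toReal ≠ 0) :
    covMatrix (pyramid K) 0 0 = ((n:ℝ) + 1) / (((n:ℝ) + 2) ^ 2 * ((n:ℝ) + 3)) ∧
    (∀ j : Fin n, covMatrix (pyramid K) 0 j.succ
      = ((n:ℝ) + 1) / (((n:ℝ) + 2) ^ 2 * ((n:ℝ) + 3)) * centroid K j) ∧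
    (∀ i : Fin n, covMatrix (pyramid K) i.succ 0
      = ((n:ℝ) + 1) / (((n:ℝ) + 2) ^ 2 * ((n:ℝ) + 3)) * centroid K i) ∧
    (∀ i j : Fin n, covMatrix (pyramid K) i.succ j.succ
      = ((n:ℝ) + 1) / ((n:ℝ) + 3) * covMatrix K i j
        + ((n:ℝ) + 1) / (((n:ℝ) + 2) ^ 2 * ((n:ℝ) + 3)) * centroid K i * centroid K j) := by
  have hPc := isCompact_pyramid hK
  have hVP : (volume (pyramid K)).toReal = (volume K).toReal / ((n:ℝ) + 1) := volume_pyramid hK
  have hn1 : (0:ℝ) < (n:ℝ) + 1 := by positivity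
  have hn2 : (0:ℝ) < (n:ℝ) + 2 := by positivity
  have hn3 : (0:ℝ) < (n:ℝ) + 3 := by positivity
  have hVP0 : (volume (pyramid K)).toReal ≠ 0 := by
    rw [hVP]
    exact div_ne_zero hV hn1.ne'
  obtain ⟨_, m1, m2, m3, m4, m5⟩ := pyramid_moments hK
  have hb : ∀ i, ∫ x in K, x i = (volume K).toReal * centroid K i := by
    intro i
    rw [centroid_eq]
    field_simp
  have hc0 : centroid (pyramid K) 0 = ((n:ℝ) + 1) / ((n:ℝ) + 2) := by
    rw [centroid_eq, m1, hVP]
    field_simp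
  have hcs : ∀ i : Fin n, centroid (pyramid K) i.succ
      = ((n:ℝ) + 1) / ((n:ℝ) + 2) * centroid K i := by
    intro i
    rw [centroid_eq, m3 i, hVP, hb i]
    field_simp
  have hm : ∀ i j : Fin n, (volume K).toReal⁻¹ * (∫ x in K, x i * x j)
      = covMatrix K i j + centroid K i * centroid K j := by
    intro i j
    rw [covMatrix_eq hK hV i j]
    ring
  refine ⟨?_, ?_, ?_, ?_⟩
  · rw [covMatrix_eq hPc hVP0, m2, hVP, hc0]
    field_simp
    ring
  · intro j
    rw [covMatrix_eq hPc hVP0, m4 j, hVP, hc0, hcs j, hb j]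
    field_simp
    ring
  · intro i
    rw [covMatrix_eq hPc hVP0, hc0, hcs i]
    have e : ∀ y : Fin (n + 1) → ℝ, y i.succ * y 0 = y 0 * y i.succ := fun y => mul_comm _ _
    simp_rw [e]
    rw [m4 i, hVP, hb i]
    field_simp
    ring
  · intro i j
    rw [covMatrix_eq hPc hVP0, m5 i j, hVP, hcs i, hcs j]
    have h1 := hm i j
    have h2 : ∫ x in K, x i * x j
        = (volume K).toReal * (covMatrix K i j + centroid K i * centroid K j) := by
      rw [← h1]
      field_simp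
    rw [h2]
    field_simp
    ring

/-- The pyramid formula: `det Cov / vol^2` of the pyramid over `K` is an explicit dimensional
constant times `det Cov / vol^2` of `K`. -/
theorem pyramid_formula {K : Set (Fin n → ℝ)} (hK : IsCompact K) (hV : (volume K).toReal ≠ 0) :
    (covMatrix (pyramid K)).det / (volume (pyramid K)).toReal ^ 2
      = ((n:ℝ) + 1) ^ (n + 3) / (((n:ℝ) + 2) ^ 2 * ((n:ℝ) + 3) ^ (n + 1))
        * ((covMatrix K).det / (volume K).toReal ^ 2) := by
  obtain ⟨h00, h0s, hs0, hss⟩ := pyramid_cov hK hV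
  have hdet := det_pyramid_cov (((n:ℝ) + 1) / (((n:ℝ) + 2) ^ 2 * ((n:ℝ) + 3)))
    (((n:ℝ) + 1) / ((n:ℝ) + 3)) (centroid K) (covMatrix K) (covMatrix (pyramid K))
    h00 h0s hs0 hss
  rw [hdet, volume_pyramid hK]
  have hn1 : (0:ℝ) < (n:ℝ) + 1 := by positivity
  have hn2 : (0:ℝ) < (n:ℝ) + 2 := by positivity
  have hn3 : (0:ℝ) < (n:ℝ) + 3 := by positivity
  rw [div_pow, div_pow]
  field_simp
  ring

end formula

end Vale.Agent.Lib.P254
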