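import Vale.Agent.Lib.P254.Body

namespace Vale.Agent.Lib.P254

open MeasureTheory Set
open scoped Pointwise Matrix

section main

variable {n : ℕ}

lemma covMatrix_posSemidef {K : Set (Fin n → ℝ)} (hK : IsCompact K) :
    (covMatrix K).PosSemidef := by
  apply Matrix.PosSemidef.of_dotProduct_mulVec_nonneg
  · ext i j
    simp only [Matrix.conjTranspose_apply, star_trivial, covMatrix]
    congr 1
    ext x
    ring
  · intro w
    have hint : ∀ i j, IntegrableOn (fun x : Fin n → ℝ =>
        (x i - centroid K i) * (x j - centroid K j)) K :=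
      fun i j => (Continuous.continuousOn (by fun_prop)).integrableOn_compact hK
    have e : star w ⬝ᵥ (covMatrix K *ᵥ w)
        = (volume K).toReal⁻¹ * ∫ x in K, (∑ i, w i * (x i - centroid K i)) ^ 2 := by
      simp only [dotProduct, Matrix.mulVec, star_trivial, covMatrix, setAverage_eq_mul,
        Pi.star_apply]
      have e2 : ∀ x : Fin n → ℝ, (∑ i, w i * (x i - centroid K i)) ^ 2
          = ∑ i, ∑ j, w i * w j * ((x i - centroid K i) * (x j - centroid K j)) := by
        intro x
        rw [sq, Finset.sum_mul_sum]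
        apply Finset.sum_congr rfl
        intro i _
        apply Finset.sum_congr rfl
        intro j _
        ring
      simp_rw [e2]
      rw [integral_finsetSum _ (fun i _ => integrable_finsetSum _
        (fun j _ => (hint i j).const_mul _))]
      simp_rw [integral_finsetSum _ (fun j _ => (hint _ j).const_mul _), integral_const_mul,
        Finset.mul_sum]
      apply Finset.sum_congr rfl
      intro i _
      apply Finset.sum_congr rfl
      intro j _
      ring
    rw [e]
    exact mul_nonneg (inv_nonneg.mpr ENNReal.toReal_nonneg)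
      (integral_nonneg (fun x => sq_nonneg _))

lemma ratio_nonneg {K : Set (Fin n → ℝ)} (hK : IsCompact K) :
    0 ≤ (covMatrix K).det / (volume K).toReal ^ 2 :=
  div_nonneg (covMatrix_posSemidef hK).det_nonneg (sq_nonneg _)

lemma isoConst_pow {K : Set (Fin n → ℝ)} (hK : IsCompact K) (hn : 1 ≤ n) :
    isoConst K ^ (2 * n) = (covMatrix K).det / (volume K).toReal ^ 2 := by
  unfold isoConst
  rw [← Real.rpow_natCast, ← Real.rpow_mul (ratio_nonneg hK)]
  have hn' : (n:ℝ) ≠ 0 := by
    have : (1:ℝ) ≤ n := by exact_mod_cast hn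
    linarith
  have e : 1 / (2 * (n:ℝ)) * ((2 * n : ℕ) : ℝ) = 1 := by
    push_cast
    field_simp
  rw [e, Real.rpow_one]

lemma isoConst_le_iff {K S : Set (Fin n → ℝ)} (hK : IsCompact K) (hS : IsCompact S)
    (hn : 1 ≤ n) :
    isoConst K ≤ isoConst S ↔ (covMatrix K).det / (volume K).toReal ^ 2
      ≤ (covMatrix S).det / (volume S).toReal ^ 2 := by
  unfold isoConst
  have hn' : (0:ℝ) < 1 / (2 * (n:ℝ)) := by
    have : (1:ℝ) ≤ n := by exact_mod_cast hn
    positivity
  exact Real.rpow_le_rpow_iff (ratio_nonneg hK) (ratio_nonneg hS) hn'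

lemma pyramid_const_pos (n : ℕ) :
    (0:ℝ) < ((n:ℝ) + 1) ^ (n + 3) / (((n:ℝ) + 2) ^ 2 * ((n:ℝ) + 3) ^ (n + 1)) := by
  positivity

/-- The pyramid formula for isotropic constants. -/
theorem isoConst_pyramid {K : Set (Fin n → ℝ)} (hK : IsConvexBody K) (hn : 1 ≤ n) :
    isoConst (pyramid K) ^ (2 * (n + 1))
      = ((n:ℝ) + 1) ^ (n + 3) / (((n:ℝ) + 2) ^ 2 * ((n:ℝ) + 3) ^ (n + 1))
        * isoConst K ^ (2 * n) := by
  rw [isoConst_pow (isCompact_pyramid hK.1) (by omega), isoConst_pow hK.1 hn,
    pyramid_formula hK.1 hK.volume_toReal_ne_zero]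

/-- Comparison of isotropic constants is preserved and reflected by taking pyramids. -/
theorem isoConst_pyramid_le_iff {K S : Set (Fin n → ℝ)} (hK : IsConvexBody K)
    (hS : IsConvexBody S) (hn : 1 ≤ n) :
    isoConst (pyramid K) ≤ isoConst (pyramid S) ↔ isoConst K ≤ isoConst S := by
  rw [isoConst_le_iff (isCompact_pyramid hK.1) (isCompact_pyramid hS.1) (by omega),
    isoConst_le_iff hK.1 hS.1 hn, pyramid_formula hK.1 hK.volume_toReal_ne_zero,
    pyramid_formula hS.1 hS.volume_toReal_ne_zero]
  exact mul_le_mul_iff_right₀ (pyramid_const_pos n)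

lemma IsSimplex.isConvexBody {S : Set (Fin n → ℝ)} (hS : IsSimplex S) : IsConvexBody S := by
  obtain ⟨v, hv, rfl⟩ := hS
  refine ⟨(Set.finite_range v).isCompact_convexHull (𝕜 := ℝ), convex_convexHull ℝ _, ?_⟩
  rw [interior_convexHull_nonempty_iff_affineSpan_eq_top,
    hv.affineSpan_eq_top_iff_card_eq_finrank_add_one]
  simp

end main

end Vale.Agent.Lib.P254
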