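import Vale.Agent.Lib.P254.ConeIntegral

namespace Vale.Agent.Lib.P254

open MeasureTheory Set
open scoped Pointwise

section moments

variable {n : ℕ}

lemma integral_Icc_pow (m : ℕ) : ∫ t in Icc (0:ℝ) 1, t ^ m = 1 / ((m:ℝ) + 1) := by
  rw [integral_Icc_eq_integral_Ioc, ← intervalIntegral.integral_of_le zero_le_one, integral_pow]
  simp

lemma integral_pyramid_pow {K : Set (Fin n → ℝ)} (hK : IsCompact K) (k : ℕ)
    (ψ : (Fin n → ℝ) → ℝ) (hψ : Continuous ψ) :
    ∫ y in pyramid K, (y 0) ^ k * ψ ((y 0)⁻¹ • Fin.tail y)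
      = (1 / ((n:ℝ) + k + 1)) * ∫ x in K, ψ x := by
  rw [integral_pyramid hK (fun t => t ^ k) (by fun_prop) ψ hψ]
  congr 1
  have h : ∀ t : ℝ, t ^ k * t ^ n = t ^ (k + n) := fun t => (pow_add t k n).symm
  simp_rw [h]
  rw [integral_Icc_pow]
  push_cast
  ring

lemma pyramid_succ_eq {K : Set (Fin n → ℝ)} {y : Fin (n + 1) → ℝ} (hy : y ∈ pyramid K)
    (i : Fin n) : y i.succ = y 0 * ((y 0)⁻¹ • Fin.tail y) i := by
  obtain ⟨t, _, x, _, rfl⟩ := hy
  simp only [Fin.cons_succ, Fin.cons_zero, Fin.tail_cons, Pi.smul_apply, smul_eq_mul]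
  by_cases ht : t = 0
  · simp [ht]
  · field_simp

lemma measurableSet_pyramid {K : Set (Fin n → ℝ)} (hK : IsCompact K) :
    MeasurableSet (pyramid K) := by
  rw [pyramid_eq_preimage]
  exact (MeasurableEquiv.piFinSuccAbove (fun _ : Fin (n + 1) => ℝ) 0).measurable
    (isCompact_pyrProd hK).measurableSet

/-- Moments of the pyramid in terms of the moments of the base. -/
lemma pyramid_moments {K : Set (Fin n → ℝ)} (hK : IsCompact K) :
    (∫ _y in pyramid K, (1:ℝ)) = (1 / ((n:ℝ) + 1)) * (volume K).toReal ∧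
    (∫ y in pyramid K, y 0) = (1 / ((n:ℝ) + 2)) * (volume K).toReal ∧
    (∫ y in pyramid K, y 0 * y 0) = (1 / ((n:ℝ) + 3)) * (volume K).toReal ∧
    (∀ i : Fin n, (∫ y in pyramid K, y i.succ) = (1 / ((n:ℝ) + 2)) * ∫ x in K, x i) ∧
    (∀ i : Fin n, (∫ y in pyramid K, y 0 * y i.succ) = (1 / ((n:ℝ) + 3)) * ∫ x in K, x i) ∧
    (∀ i j : Fin n, (∫ y in pyramid K, y i.succ * y j.succ)
      = (1 / ((n:ℝ) + 3)) * ∫ x in K, x i * x j) := by
  have hP := measurableSet_pyramid hK
  have hone : (∫ _x in K, (1:ℝ)) = (volume K).toReal := by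
    rw [setIntegral_const, measureReal_def, smul_eq_mul, mul_one]
  refine ⟨?_, ?_, ?_, ?_, ?_, ?_⟩
  · have h := integral_pyramid_pow hK 0 (fun _ => (1:ℝ)) continuous_const
    simp only [pow_zero, mul_one, Nat.cast_zero, add_zero] at h
    rw [h, hone]
  · have h := integral_pyramid_pow hK 1 (fun _ => (1:ℝ)) continuous_const
    simp only [pow_one, mul_one, Nat.cast_one] at h
    rw [h, hone]
    ring
  · have h := integral_pyramid_pow hK 2 (fun _ => (1:ℝ)) continuous_const
    simp only [mul_one, Nat.cast_ofNat] at h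
    have e : ∀ y : Fin (n + 1) → ℝ, y 0 * y 0 = y 0 ^ 2 := fun y => by ring
    simp_rw [e]
    rw [h, hone]
    ring
  · intro i
    have h := integral_pyramid_pow hK 1 (fun x => x i) (continuous_apply i)
    simp only [pow_one, Nat.cast_one] at h
    have e : (1 / ((n:ℝ) + 2)) = (1 / ((n:ℝ) + 1 + 1)) := by ring
    rw [e, ← h]
    exact setIntegral_congr_fun hP (fun y hy => pyramid_succ_eq hy i)
  · intro i
    have h := integral_pyramid_pow hK 2 (fun x => x i) (continuous_apply i)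
    simp only [Nat.cast_ofNat] at h
    have e : (1 / ((n:ℝ) + 3)) = (1 / ((n:ℝ) + 2 + 1)) := by ring
    rw [e, ← h]
    apply setIntegral_congr_fun hP
    intro y hy
    simp only
    rw [pyramid_succ_eq hy i]
    ring
  · intro i j
    have h := integral_pyramid_pow hK 2 (fun x => x i * x j)
      ((continuous_apply i).mul (continuous_apply j))
    simp only [Nat.cast_ofNat] at h
    have e : (1 / ((n:ℝ) + 3)) = (1 / ((n:ℝ) + 2 + 1)) := by ring
    rw [e, ← h]
    apply setIntegral_congr_fun hP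
    intro y hy
    simp only
    rw [pyramid_succ_eq hy i, pyramid_succ_eq hy j]
    ring

end moments

end Vale.Agent.Lib.P254
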